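import Crest.Agent.R208.F1c

/-!
# Row 262, PL (helper92), part Ang: angular forms

* `dx`, `dy`      : the coordinate 1-forms of `ℂ`;
* `angE e`        : the regularised angular form `(x dy - y dx) / (2 π (|z|² + e))`, `d_angE`;
* `ang f`         : `d arg f / 2 π` for `f : E → ℂ`; `ang_eq`, `ang_mul`, `ang_pow`, `ang_prod`,
                    `ang_comp`, `contDiffAt_ang`, `d_ang`;
* `vol2 f`        : `d Re f ∧ d Im f`.
-/

set_option autoImplicit false
set_option linter.unusedSectionVars false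

open Set Filter Topology Module
open scoped ContDiff
open Crest.Agent.R208.F

noncomputable section

namespace Crest.Agent.X262.PL

/-- `dx` on `ℂ` -/
def dx : Ext ℂ := io (Complex.reLm : Module.Dual ℝ ℂ)
/-- `dy` on `ℂ` -/
def dy : Ext ℂ := io (Complex.imLm : Module.Dual ℝ ℂ)

theorem io_cx (l : Module.Dual ℝ ℂ) : io l = l 1 • dx + l Complex.I • dy := by
  have h : l = l 1 • (Complex.reLm : Module.Dual ℝ ℂ) + l Complex.I • Complex.imLm := by
    refine LinearMap.ext fun z => ?_
    have hz : z = z.re • (1 : ℂ) + z.im • Complex.I := by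
      apply Complex.ext <;> simp
    conv_lhs => rw [hz, map_add, map_smul, map_smul]
    simp [mul_comm]
  conv_lhs => rw [h]
  rw [map_add, map_smul, map_smul]
  rfl

theorem dx_dx : dx * dx = 0 := io_sq _
theorem dy_dy : dy * dy = 0 := io_sq _
theorem dy_dx : dy * dx = - (dx * dy) := io_anti _ _

/-- regularised angular form -/
def angE (e : ℝ) (z : ℂ) : Ext ℂ :=
  ((2 * Real.pi)⁻¹ * (Complex.normSq z + e)⁻¹) • (z.re • dy - z.im • dx)

theorem contDiff_normSq {n : WithTop ℕ∞} : ContDiff ℝ n (fun z : ℂ => Complex.normSq z) := by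
  have : (fun z : ℂ => Complex.normSq z) = fun z => z.re * z.re + z.im * z.im := by
    funext z; rw [Complex.normSq_apply]
  rw [this]
  exact (Complex.reCLM.contDiff.mul Complex.reCLM.contDiff).add
    (Complex.imCLM.contDiff.mul Complex.imCLM.contDiff)

theorem contDiffAt_angE {n : WithTop ℕ∞} {e : ℝ} {z : ℂ} (h : Complex.normSq z + e ≠ 0) :
    ContDiffAt ℝ n (angE e) z := by
  have h1 : ContDiffAt ℝ n (fun z : ℂ => (2 * Real.pi)⁻¹ * (Complex.normSq z + e)⁻¹) z :=
    contDiffAt_const.mul ((contDiff_normSq.contDiffAt.add contDiffAt_const).inv h)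
  have hre : ContDiffAt ℝ n (fun z : ℂ => z.re) z := Complex.reCLM.contDiff.contDiffAt
  have him : ContDiffAt ℝ n (fun z : ℂ => z.im) z := Complex.imCLM.contDiff.contDiffAt
  have h2 : ContDiffAt ℝ n (fun z : ℂ => z.re • dy - z.im • dx) z :=
    (hre.smul (contDiffAt_const (c := dy))).sub (him.smul (contDiffAt_const (c := dx)))
  exact h1.smul h2

theorem hasFDerivAt_normSq (z : ℂ) : HasFDerivAt (fun z : ℂ => Complex.normSq z)
    ((2 * z.re) • Complex.reCLM + (2 * z.im) • Complex.imCLM) z := by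
  have : (fun z : ℂ => Complex.normSq z) = fun z => z.re * z.re + z.im * z.im := by
    funext z; rw [Complex.normSq_apply]
  rw [this]
  have h1 := (Complex.reCLM.hasFDerivAt (x := z)).fun_mul (Complex.reCLM.hasFDerivAt (x := z))
  have h2 := (Complex.imCLM.hasFDerivAt (x := z)).fun_mul (Complex.imCLM.hasFDerivAt (x := z))
  refine (h1.fun_add h2).congr_fderiv ?_
  ext v
  simp
  ring

theorem d_angE {e : ℝ} {z : ℂ} (h : Complex.normSq z + e ≠ 0) :
    d (angE e) z = (e / (Real.pi * (Complex.normSq z + e) ^ 2)) • (dx * dy) := by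
  have hN : HasFDerivAt (fun z : ℂ => Complex.normSq z + e)
      ((2 * z.re) • Complex.reCLM + (2 * z.im) • Complex.imCLM) z :=
    (hasFDerivAt_normSq z).add_const e
  have hI := (hasDerivAt_inv h).comp_hasFDerivAt z hN
  have hg : HasFDerivAt (fun z : ℂ => (2 * Real.pi)⁻¹ * (Complex.normSq z + e)⁻¹)
      ((2 * Real.pi)⁻¹ • ((-((Complex.normSq z + e) ^ 2)⁻¹) •
        ((2 * z.re) • Complex.reCLM + (2 * z.im) • Complex.imCLM))) z := hI.const_mul _
  have hre : DifferentiableAt ℝ (fun z : ℂ => z.re) z := Complex.reCLM.differentiableAt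
  have him : DifferentiableAt ℝ (fun z : ℂ => z.im) z := Complex.imCLM.differentiableAt
  have h1 : DifferentiableAt ℝ (fun z : ℂ => z.re • dy) z := hre.smul_const _
  have h2 : DifferentiableAt ℝ (fun z : ℂ => z.im • dx) z := him.smul_const _
  have h3 : d (fun z : ℂ => z.re • dy - z.im • dx) z = (2 : ℝ) • (dx * dy) := by
    rw [d_sub h1 h2, d_smul hre (differentiableAt_const _), d_smul him (differentiableAt_const _),
      d_const, d_const, smul_zero, smul_zero, add_zero, add_zero]
    have e1 : fderiv ℝ (fun z : ℂ => z.re) z = Complex.reCLM := Complex.reCLM.fderiv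
    have e2 : fderiv ℝ (fun z : ℂ => z.im) z = Complex.imCLM := Complex.imCLM.fderiv
    rw [e1, e2]
    change dx * dy - dy * dx = _
    rw [dy_dx, two_smul, sub_neg_eq_add]
  unfold angE
  rw [d_smul hg.differentiableAt (h1.fun_sub h2), h3, hg.fderiv, io_cx]
  simp only [ContinuousLinearMap.coe_coe, _root_.smul_apply,
    _root_.add_apply, Complex.reCLM_apply, Complex.imCLM_apply, Complex.one_re,
    Complex.one_im, Complex.I_re, Complex.I_im, smul_eq_mul, mul_one, mul_zero, add_zero, zero_add,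
    add_mul, mul_sub, smul_mul_assoc, mul_smul_comm, dx_dx, dy_dy, dy_dx, smul_zero, smul_neg,
    smul_smul, sub_neg_eq_add]
  rw [← add_smul, ← add_smul]
  congr 1
  have hpi := Real.pi_ne_zero
  rw [Complex.normSq_apply] at h ⊢
  field_simp
  ring

theorem inv_angE (e : ℝ) (z : ℂ) : inv (angE e z) = - angE e z := by
  simp only [angE, map_smul, map_sub, dx, dy, inv_io, smul_neg, smul_sub]
  abel

section ang
variable {E F : Type*} [NormedAddCommGroup E] [NormedSpace ℝ E] [FiniteDimensional ℝ E]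
  [NormedAddCommGroup F] [NormedSpace ℝ F] [FiniteDimensional ℝ F]

/-- `d arg f / 2 π` -/
def ang (f : E → ℂ) : E → Ext E := pull f (angE 0)


/-- the covector `v ↦ Im (c * A v)` -/
def imc (c : ℂ) (A : E →L[ℝ] ℂ) : Module.Dual ℝ E :=
  Complex.imLm ∘ₗ (LinearMap.mul ℝ ℂ c) ∘ₗ (A : E →ₗ[ℝ] ℂ)

@[simp] theorem imc_apply (c : ℂ) (A : E →L[ℝ] ℂ) (v : E) : imc c A v = (c * A v).im := rfl

theorem ang_eq (f : E → ℂ) (x : E) :
    ang f x = (2 * Real.pi)⁻¹ • io (imc (f x)⁻¹ (fderiv ℝ f x)) := by
  simp only [ang, pull, angE, map_smul, map_sub, dx, dy, pb_io, add_zero]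
  rw [mul_smul]
  congr 1
  rw [← map_smul, ← map_smul, ← map_sub, ← map_smul]
  congr 1
  refine LinearMap.ext fun v => ?_
  simp only [LinearMap.smul_apply, LinearMap.sub_apply, LinearMap.comp_apply, imc_apply,
    ContinuousLinearMap.coe_coe, Complex.reLm_coe, Complex.imLm_coe, smul_eq_mul, Complex.mul_im,
    Complex.inv_re, Complex.inv_im]
  ring

theorem inv_ang (f : E → ℂ) (x : E) : inv (ang f x) = - ang f x := by
  rw [ang_eq, map_smul, inv_io, smul_neg]

theorem ang_congr {f g : E → ℂ} {x : E} (h : f =ᶠ[𝓝 x] g) : ang f x = ang g x := pull_congr h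

theorem ang_mul {f g : E → ℂ} {x : E} (hf : DifferentiableAt ℝ f x) (hg : DifferentiableAt ℝ g x)
    (hf0 : f x ≠ 0) (hg0 : g x ≠ 0) : ang (fun y => f y * g y) x = ang f x + ang g x := by
  rw [ang_eq, ang_eq, ang_eq, ← smul_add, ← map_add]
  congr 2
  refine LinearMap.ext fun v => ?_
  rw [fderiv_fun_mul hf hg]
  simp only [imc_apply, LinearMap.add_apply, _root_.add_apply,
    _root_.smul_apply, smul_eq_mul, ← Complex.add_im]
  congr 1
  field_simp
  ring

theorem ang_const (c : ℂ) (x : E) : ang (fun _ : E => c) x = 0 := by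
  rw [ang_eq]
  have : imc c⁻¹ (fderiv ℝ (fun _ : E => c) x) = 0 := by
    refine LinearMap.ext fun v => ?_
    simp
  rw [this, map_zero, smul_zero]

theorem ang_pow {f : E → ℂ} {x : E} (hf : DifferentiableAt ℝ f x) (hf0 : f x ≠ 0) (m : ℕ) :
    ang (fun y => f y ^ m) x = (m : ℝ) • ang f x := by
  induction m with
  | zero => simp only [pow_zero, Nat.cast_zero, zero_smul]; exact ang_const 1 x
  | succ m ih =>
    simp only [pow_succ]
    rw [ang_mul (hf.fun_pow m) hf (pow_ne_zero m hf0) hf0, ih, Nat.cast_succ, add_smul, one_smul]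



theorem diffAt_prod {ι : Type*} (s : Finset ι) {f : ι → E → ℂ} {x : E}
    (hf : ∀ i ∈ s, DifferentiableAt ℝ (f i) x) :
    DifferentiableAt ℝ (fun y => ∏ i ∈ s, f i y) x := by
  classical
  induction s using Finset.induction_on with
  | empty => simp only [Finset.prod_empty]; exact differentiableAt_const _
  | insert a s ha ih =>
    simp only [Finset.prod_insert ha]
    exact (hf a (Finset.mem_insert_self a s)).fun_mul
      (ih fun i hi => hf i (Finset.mem_insert_of_mem hi))

theorem ang_prod {ι : Type*} (s : Finset ι) {f : ι → E → ℂ} {x : E}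
    (hf : ∀ i ∈ s, DifferentiableAt ℝ (f i) x) (hf0 : ∀ i ∈ s, f i x ≠ 0) :
    ang (fun y => ∏ i ∈ s, f i y) x = ∑ i ∈ s, ang (f i) x := by
  classical
  induction s using Finset.induction_on with
  | empty => simp only [Finset.prod_empty, Finset.sum_empty]; exact ang_const 1 x
  | insert a s ha ih =>
    simp only [Finset.prod_insert ha, Finset.sum_insert ha]
    rw [ang_mul (hf a (Finset.mem_insert_self a s)) ?_ (hf0 a (Finset.mem_insert_self a s)) ?_,
      ih (fun i hi => hf i (Finset.mem_insert_of_mem hi))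
        (fun i hi => hf0 i (Finset.mem_insert_of_mem hi))]
    · exact diffAt_prod s fun i hi => hf i (Finset.mem_insert_of_mem hi)
    · exact Finset.prod_ne_zero_iff.2 fun i hi => hf0 i (Finset.mem_insert_of_mem hi)

theorem ang_comp {f : E → ℂ} {u : F → E} {x : F} (hu : DifferentiableAt ℝ u x)
    (hf : DifferentiableAt ℝ f (u x)) : pull u (ang f) x = ang (fun y => f (u y)) x :=
  pull_comp hu hf


theorem normSq_ne {z : ℂ} (h : z ≠ 0) : Complex.normSq z + 0 ≠ 0 := by
  rw [add_zero]; exact fun h0 => h (Complex.normSq_eq_zero.1 h0)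

theorem contDiffAt_ang {f : E → ℂ} {x : E} {n m : WithTop ℕ∞} (hf : ContDiffAt ℝ n f x)
    (hmn : m + 1 ≤ n) (h0 : f x ≠ 0) : ContDiffAt ℝ m (ang f) x :=
  contDiffAt_pull hf hmn (contDiffAt_angE (normSq_ne h0))

theorem d_ang {f : E → ℂ} {x : E} (hf : ContDiffAt ℝ 2 f x) (h0 : f x ≠ 0) :
    d (ang f) x = 0 := by
  rw [ang, d_pull hf ((contDiffAt_angE (n := 1) (normSq_ne h0)).differentiableAt (by simp)), pull,
    d_angE (normSq_ne h0), zero_div, zero_smul, map_zero]

end ang

end Crest.Agent.X262.PL
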