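import Crest.Agent.X262.PL.Ang
import Crest.Agent.R208.FH1
import Crest.Agent.R208.T0b
import Crest.Agent.R208.CM3
import Crest.Agent.R208.OE1
import Crest.Agent.X262.Man.Lin
import Crest.Agent.X262.Man.PM
import Crest.Agent.X262.Man.Th

-- ▼ part X262/PL/Flat
section

/-!
# Row 262, PL (helper92), part Flat: the Poincaré–Lelong formula on `ℂ × Q`

`flat_int`, `flat_pl`: for a compactly supported `C¹` form `ψ` on `ℂ × Q` and any linear functional
`T` on the exterior algebra, `∫ T (ang z ∧ dψ) = ∫_Q T (dx ∧ dy ∧ ψ (0, w))`.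
`eP n`: the volume preserving identification `ℝ^(n+2) ≃ ℂ × ℝ^n`, `top_eP`.
-/

set_option autoImplicit false
set_option linter.unusedSectionVars false

open Set Filter Topology Module MeasureTheory
open scoped ContDiff
open Crest.Agent.R208.F Crest.Agent.R208.FI

noncomputable section

namespace Crest.Agent.X262.PL

/-! ### the peak function -/

/-- the peak function `1 / (π (|z|² + 1)²)` -/
def pk (z : ℂ) : ℝ := 1 / (Real.pi * (‖z‖ ^ 2 + 1) ^ 2)

theorem pk_nonneg (z : ℂ) : 0 ≤ pk z := by unfold pk; positivity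

theorem integral_pk : ∫ z : ℂ, pk z = 1 := by
  have h := integral_fun_norm_addHaar (volume : Measure ℂ)
    (fun r : ℝ => 1 / (Real.pi * (r ^ 2 + 1) ^ 2))
  have hpi := Real.pi_pos
  have h1 : ∫ y in Ioi (0 : ℝ), y ^ (2 - 1) • (1 / (Real.pi * (y ^ 2 + 1) ^ 2))
      = 0 - (-(1 / (2 * Real.pi * ((0 : ℝ) ^ 2 + 1)))) := by
    refine integral_Ioi_of_hasDerivAt_of_nonneg'
      (g := fun y : ℝ => -(1 / (2 * Real.pi * (y ^ 2 + 1)))) (fun y _ => ?_) (fun y hy => ?_) ?_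
    · have h2 : HasDerivAt (fun y : ℝ => 2 * Real.pi * (y ^ 2 + 1)) (2 * Real.pi * (2 * y)) y := by
        have := ((hasDerivAt_pow 2 y).add_const 1).const_mul (2 * Real.pi)
        simpa using this
      have h3 : (2 * Real.pi * (y ^ 2 + 1)) ≠ 0 := by positivity
      have h4 := (h2.fun_inv h3).fun_neg
      simp only [one_div]
      refine h4.congr_deriv ?_
      have h5 : y ^ 2 + 1 ≠ 0 := by positivity
      simp only [smul_eq_mul]
      field_simp
      ring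
    · have : 0 < y := hy
      simp only [smul_eq_mul]
      positivity
    · have h2 : Tendsto (fun y : ℝ => 2 * Real.pi * (y ^ 2 + 1)) atTop atTop :=
        Tendsto.const_mul_atTop (by positivity)
          (tendsto_atTop_add_const_right _ 1 (tendsto_pow_atTop two_ne_zero))
      have h3 := h2.inv_tendsto_atTop.neg
      simp only [one_div, neg_zero] at h3 ⊢
      exact h3
  rw [Complex.finrank_real_complex, h1] at h
  have h2 : (volume : Measure ℂ).real (Metric.ball 0 1) = Real.pi := by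
    rw [Measure.real, Complex.volume_ball]
    simp
  rw [h2] at h
  refine h.trans ?_
  simp only [smul_eq_mul, nsmul_eq_mul]
  field_simp
  norm_num

theorem tendsto_pk : Tendsto (fun z : ℂ => ‖z‖ ^ finrank ℝ ℂ * pk z) (Bornology.cobounded ℂ) (𝓝 0) := by
  rw [Complex.finrank_real_complex]
  have hpi := Real.pi_pos
  have h1 : Tendsto (fun z : ℂ => (Real.pi * (‖z‖ ^ 2 + 1))⁻¹) (Bornology.cobounded ℂ) (𝓝 0) := by
    refine Tendsto.inv_tendsto_atTop (Tendsto.const_mul_atTop hpi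
      (tendsto_atTop_add_const_right _ 1 ?_))
    exact (tendsto_pow_atTop two_ne_zero).comp tendsto_norm_cobounded_atTop
  refine squeeze_zero (fun z => mul_nonneg (by positivity) (pk_nonneg z)) (fun z => ?_) h1
  unfold pk
  have h2 : 0 < ‖z‖ ^ 2 + 1 := by positivity
  rw [mul_one_div, div_le_iff₀ (by positivity)]
  field_simp
  nlinarith [sq_nonneg ‖z‖]

theorem pk_scale {c : ℝ} (hc : 0 < c) (z : ℂ) :
    c ^ finrank ℝ ℂ * pk (c • z)
      = (c ^ 2)⁻¹ / (Real.pi * (Complex.normSq z + (c ^ 2)⁻¹) ^ 2) := by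
  rw [Complex.finrank_real_complex, pk, norm_smul, Real.norm_of_nonneg hc.le,
    Complex.normSq_eq_norm_sq]
  have hpi := Real.pi_pos
  field_simp

section flat
variable {Q : Type*} [NormedAddCommGroup Q] [NormedSpace ℝ Q] [FiniteDimensional ℝ Q]
  [MeasurableSpace Q] [BorelSpace Q] (ν : Measure Q) [ν.IsAddHaarMeasure]

theorem locInt_inv : LocallyIntegrable (fun p : ℂ × Q => ‖p.1‖⁻¹) ((volume : Measure ℂ).prod ν) := by
  have h1 : LocallyIntegrable (fun z : ℂ => ‖z‖⁻¹) volume := by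
    refine locallyIntegrable_of_norm_le_rpow (C := 1) (α := 1) (by simp) (by simp) ?_ ?_
    · refine Eventually.of_forall fun z => ?_
      rw [Real.rpow_neg_one, one_mul, norm_inv, norm_norm]
    · exact (measurable_norm.inv).aestronglyMeasurable
  rw [locallyIntegrable_iff]
  intro K hK
  have h2 : IntegrableOn (fun z : ℂ => ‖z‖⁻¹) (Prod.fst '' K) volume :=
    h1.integrableOn_isCompact (hK.image continuous_fst)
  have h3 : IntegrableOn (fun _ : Q => (1 : ℝ)) (Prod.snd '' K) ν :=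
    integrableOn_const (hK.image continuous_snd).measure_lt_top.ne
  have h4 := Integrable.mul_prod h2 h3
  rw [Measure.prod_restrict] at h4
  simp only [mul_one] at h4
  exact IntegrableOn.mono_set h4 fun p hp => ⟨⟨p, hp, rfl⟩, ⟨p, hp, rfl⟩⟩

/-- `dx`, `dy` pulled back to the product -/
def fx : Ext (ℂ × Q) := pb (LinearMap.fst ℝ ℂ Q) dx
/-- `dx`, `dy` pulled back to the product -/
def fy : Ext (ℂ × Q) := pb (LinearMap.fst ℝ ℂ Q) dy

theorem pull_fst (om : ℂ → Ext ℂ) (p : ℂ × Q) :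
    pull (Prod.fst : ℂ × Q → ℂ) om p = pb (LinearMap.fst ℝ ℂ Q) (om p.1) := by
  rw [pull, fderiv_fst]; rfl


theorem T_angE (T : Ext (ℂ × Q) →ₗ[ℝ] ℝ) (e : ℝ) (p : ℂ × Q) (c : Ext (ℂ × Q)) :
    T (pull (Prod.fst : ℂ × Q → ℂ) (angE e) p * c) =
      (2 * Real.pi)⁻¹ * (Complex.normSq p.1 + e)⁻¹ *
        (p.1.re * T (fy * c) - p.1.im * T (fx * c)) := by
  rw [pull_fst, angE]
  simp only [map_smul, map_sub, smul_mul_assoc, sub_mul, smul_eq_mul]
  rfl

theorem abs_T_angE (T : Ext (ℂ × Q) →ₗ[ℝ] ℝ) {e : ℝ} (he : 0 ≤ e) (p : ℂ × Q) (c : Ext (ℂ × Q)) :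
    ‖T (pull (Prod.fst : ℂ × Q → ℂ) (angE e) p * c)‖ ≤
      ‖p.1‖⁻¹ • ((2 * Real.pi)⁻¹ * (|T (fy * c)| + |T (fx * c)|)) := by
  rw [T_angE]
  have hpi := Real.pi_pos
  rcases eq_or_ne p.1 0 with h0 | h0
  · simp [h0]
  have hn : 0 < ‖p.1‖ := norm_pos_iff.2 h0
  have h1 : |p.1.re * T (fy * c) - p.1.im * T (fx * c)|
      ≤ ‖p.1‖ * (|T (fy * c)| + |T (fx * c)|) := by
    refine (abs_sub _ _).trans ?_
    rw [abs_mul, abs_mul, mul_add]
    exact add_le_add (mul_le_mul_of_nonneg_right (Complex.abs_re_le_norm _) (abs_nonneg _))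
      (mul_le_mul_of_nonneg_right (Complex.abs_im_le_norm _) (abs_nonneg _))
  have h2 : (Complex.normSq p.1 + e)⁻¹ ≤ (‖p.1‖ ^ 2)⁻¹ := by
    rw [Complex.normSq_eq_norm_sq]
    exact inv_anti₀ (by positivity) (by linarith)
  have h3 : 0 ≤ (Complex.normSq p.1 + e)⁻¹ := by
    have := Complex.normSq_nonneg p.1
    positivity
  rw [Real.norm_eq_abs, abs_mul, abs_of_nonneg (by positivity), smul_eq_mul]
  calc _ ≤ (2 * Real.pi)⁻¹ * (‖p.1‖ ^ 2)⁻¹ * (‖p.1‖ * (|T (fy * c)| + |T (fx * c)|)) := by gcongr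
    _ = _ := by field_simp

theorem continuous_T_mul (T : Ext (ℂ × Q) →ₗ[ℝ] ℝ) (a : Ext (ℂ × Q)) {η : ℂ × Q → Ext (ℂ × Q)}
    (hη : Continuous η) : Continuous fun p => T (a * η p) :=
  (LinearMap.toContinuousLinearMap (T ∘ₗ LinearMap.mul ℝ _ a)).continuous.comp hη

theorem compact_T_mul (T : Ext (ℂ × Q) →ₗ[ℝ] ℝ) (a : Ext (ℂ × Q)) {η : ℂ × Q → Ext (ℂ × Q)}
    (hc : HasCompactSupport η) : HasCompactSupport fun p => T (a * η p) :=
  hc.comp_left (g := fun c => T (a * c)) (by simp)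

theorem integrable_bound (T : Ext (ℂ × Q) →ₗ[ℝ] ℝ) {η : ℂ × Q → Ext (ℂ × Q)}
    (hη : Continuous η) (hc : HasCompactSupport η) :
    Integrable (fun p : ℂ × Q => ‖p.1‖⁻¹ • ((2 * Real.pi)⁻¹ * (|T (fy * η p)| + |T (fx * η p)|)))
      ((volume : Measure ℂ).prod ν) := by
  refine (locInt_inv ν).integrable_smul_right_of_hasCompactSupport ?_ ?_
  · exact continuous_const.mul
      ((continuous_T_mul T _ hη).abs.add (continuous_T_mul T _ hη).abs)
  · exact hc.comp_left (g := fun c => (2 * Real.pi)⁻¹ * (|T (fy * c)| + |T (fx * c)|)) (by simp)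

theorem measurable_T_angE (T : Ext (ℂ × Q) →ₗ[ℝ] ℝ) (e : ℝ) {η : ℂ × Q → Ext (ℂ × Q)}
    (hη : Continuous η) :
    Measurable fun p : ℂ × Q => T (pull (Prod.fst : ℂ × Q → ℂ) (angE e) p * η p) := by
  simp only [T_angE]
  refine (measurable_const.mul ?_).mul ?_
  · exact ((Complex.continuous_normSq.comp continuous_fst).add continuous_const).measurable.inv
  · exact (((Complex.continuous_re.comp continuous_fst).mul (continuous_T_mul T _ hη)).sub
      ((Complex.continuous_im.comp continuous_fst).mul (continuous_T_mul T _ hη))).measurable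

/-- the singular form is integrable against continuous compactly supported forms -/
theorem flat_int (T : Ext (ℂ × Q) →ₗ[ℝ] ℝ) {η : ℂ × Q → Ext (ℂ × Q)}
    (hη : Continuous η) (hc : HasCompactSupport η) :
    Integrable (fun p : ℂ × Q => T (ang (Prod.fst : ℂ × Q → ℂ) p * η p))
      ((volume : Measure ℂ).prod ν) :=
  (integrable_bound ν T hη hc).mono' (measurable_T_angE T 0 hη).aestronglyMeasurable
    (Eventually.of_forall fun p => abs_T_angE T le_rfl p _)

theorem flat_stokes (T : Ext (ℂ × Q) →ₗ[ℝ] ℝ) {ψ : ℂ × Q → Ext (ℂ × Q)}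
    (hψ : ContDiff ℝ 1 ψ) (hc : HasCompactSupport ψ) {e : ℝ} (he : 0 < e) :
    ∫ p : ℂ × Q, T (pull (Prod.fst : ℂ × Q → ℂ) (angE e) p * d ψ p) ∂((volume : Measure ℂ).prod ν)
      = ∫ p : ℂ × Q, (e / (Real.pi * (Complex.normSq p.1 + e) ^ 2)) * T (fx * fy * ψ p)
          ∂((volume : Measure ℂ).prod ν) := by
  have hne : ∀ z : ℂ, Complex.normSq z + e ≠ 0 := fun z => by
    have := Complex.normSq_nonneg z
    positivity
  have hA : ∀ p : ℂ × Q, ContDiffAt ℝ 1 (pull (Prod.fst : ℂ × Q → ℂ) (angE e)) p := fun p =>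
    contDiffAt_pull (n := 2) contDiffAt_fst (by norm_num) (contDiffAt_angE (hne _))
  have hβ : ContDiff ℝ 1 fun p => pull (Prod.fst : ℂ × Q → ℂ) (angE e) p * ψ p :=
    contDiff_mul (contDiff_iff_contDiffAt.2 hA) hψ
  have hβc : HasCompactSupport fun p => pull (Prod.fst : ℂ × Q → ℂ) (angE e) p * ψ p :=
    hc.mul_left
  have hS := integral_functional_d_eq_zero ((volume : Measure ℂ).prod ν) hβ hβc T
  have hd : ∀ p : ℂ × Q, T (d (fun p => pull (Prod.fst : ℂ × Q → ℂ) (angE e) p * ψ p) p)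
      = (e / (Real.pi * (Complex.normSq p.1 + e) ^ 2)) * T (fx * fy * ψ p)
        - T (pull (Prod.fst : ℂ × Q → ℂ) (angE e) p * d ψ p) := by
    intro p
    rw [d_mul ((hA p).differentiableAt (by simp)) (hψ.differentiable (by simp) p),
      d_pull contDiffAt_fst ((contDiffAt_angE (n := 1) (hne _)).differentiableAt (by simp)),
      pull_fst, pull_fst, d_angE (hne _), ← pb_inv, inv_angE]
    simp only [map_smul, map_neg, map_mul, smul_mul_assoc, neg_mul, map_add, smul_eq_mul]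
    rfl
  simp only [hd] at hS
  have hdc : Continuous (d ψ) := (wd _).continuous.comp (hψ.continuous_fderiv one_ne_zero)
  rw [integral_sub] at hS
  · exact (sub_eq_zero.1 hS).symm
  · refine Continuous.integrable_of_hasCompactSupport ?_ (compact_T_mul T _ hc).mul_left
    refine Continuous.mul (continuous_const.div ?_ fun p => ?_) (continuous_T_mul T _ hψ.continuous)
    · exact continuous_const.mul
        (((Complex.continuous_normSq.comp continuous_fst).add continuous_const).pow 2)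
    · exact mul_ne_zero Real.pi_ne_zero (pow_ne_zero _ (hne _))
  · exact (integrable_bound ν T hdc (hasCompactSupport_d hc)).mono'
      (measurable_T_angE T e hdc).aestronglyMeasurable
      (Eventually.of_forall fun p => abs_T_angE T he.le p _)

theorem tendsto_peak {g : ℂ × Q → ℝ} (hg : Continuous g) (hc : HasCompactSupport g) :
    Tendsto (fun c : ℝ => ∫ p : ℂ × Q, (c ^ finrank ℝ ℂ * pk (c • p.1)) * g p
      ∂((volume : Measure ℂ).prod ν)) atTop (𝓝 (∫ w, g (0, w) ∂ν)) := by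
  have hi : Integrable g ((volume : Measure ℂ).prod ν) := hg.integrable_of_hasCompactSupport hc
  have hG : Continuous fun z : ℂ => ∫ w, g (z, w) ∂ν := by
    rw [← continuousOn_univ]
    refine continuousOn_integral_of_compact_support (k := Prod.snd '' tsupport g)
      (hc.isCompact.image continuous_snd) hg.continuousOn fun z w _ hw => ?_
    by_contra h
    exact hw ⟨(z, w), subset_tsupport g h, rfl⟩
  have h1 := tendsto_integral_comp_smul_smul_of_integrable (μ := (volume : Measure ℂ)) pk_nonneg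
    integral_pk tendsto_pk hi.integral_prod_left hG.continuousAt
  refine h1.congr fun c => ?_
  have hpk : Continuous fun z : ℂ => c ^ finrank ℝ ℂ * pk (c • z) := by
    refine continuous_const.mul (continuous_const.div (by fun_prop) fun z => ?_)
    have := Real.pi_pos
    positivity
  rw [integral_prod]
  · simp only [integral_const_mul, smul_eq_mul]
  · exact ((hpk.comp continuous_fst).mul hg).integrable_of_hasCompactSupport hc.mul_left

/-- **flat Poincaré–Lelong formula** -/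
theorem flat_pl (T : Ext (ℂ × Q) →ₗ[ℝ] ℝ) {ψ : ℂ × Q → Ext (ℂ × Q)}
    (hψ : ContDiff ℝ 1 ψ) (hc : HasCompactSupport ψ) :
    ∫ p : ℂ × Q, T (ang (Prod.fst : ℂ × Q → ℂ) p * d ψ p) ∂((volume : Measure ℂ).prod ν)
      = ∫ w, T (fx * fy * ψ (0, w)) ∂ν := by
  have hdc : Continuous (d ψ) := (wd _).continuous.comp (hψ.continuous_fderiv one_ne_zero)
  have h1 := tendsto_peak ν (continuous_T_mul T (fx * fy) hψ.continuous) (compact_T_mul T _ hc)
  have h2 : Tendsto (fun c : ℝ => ∫ p : ℂ × Q,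
      T (pull (Prod.fst : ℂ × Q → ℂ) (angE (c ^ 2)⁻¹) p * d ψ p) ∂((volume : Measure ℂ).prod ν))
      atTop (𝓝 (∫ p : ℂ × Q, T (ang (Prod.fst : ℂ × Q → ℂ) p * d ψ p)
        ∂((volume : Measure ℂ).prod ν))) := by
    refine tendsto_integral_filter_of_dominated_convergence _
      (Eventually.of_forall fun c => (measurable_T_angE T _ hdc).aestronglyMeasurable)
      (Eventually.of_forall fun c => Eventually.of_forall fun p =>
        abs_T_angE T (by positivity) p _)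
      (integrable_bound ν T hdc (hasCompactSupport_d hc)) (Eventually.of_forall fun p => ?_)
    simp only [ang, T_angE]
    rcases eq_or_ne p.1 0 with h0 | h0
    · simp [h0]
    have h3 : Tendsto (fun c : ℝ => (c ^ 2)⁻¹) atTop (𝓝 0) :=
      (tendsto_pow_atTop two_ne_zero).inv_tendsto_atTop
    exact (((h3.const_add _).inv₀ (normSq_ne h0)).const_mul _).mul_const _
  refine tendsto_nhds_unique h2 (h1.congr' ?_)
  filter_upwards [eventually_gt_atTop 0] with c hc0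
  rw [flat_stokes ν T hψ hc (by positivity)]
  simp only [pk_scale hc0]

end flat

/-! ### the identification `ℝ^(n+2) ≃ ℂ × ℝ^n` -/

/-- index bijection -/
def iP (n : ℕ) : Fin 2 ⊕ Fin n ≃ Fin (n + 2) := finSumFinEquiv.trans (finCongr (add_comm 2 n))

/-- the basis `1, i, e₁, …, eₙ` -/
def bP (n : ℕ) : Basis (Fin (n + 2)) ℝ (ℂ × Eu n) := (Complex.basisOneI.prod (sb n)).reindex (iP n)

/-- the identification `ℝ^(n+2) ≃ ℂ × ℝ^n` -/
def eP (n : ℕ) : Eu (n + 2) ≃L[ℝ] ℂ × Eu n :=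
  ((sb (n + 2)).equiv (bP n) (Equiv.refl _)).toContinuousLinearEquiv

theorem eP_sb (n : ℕ) (i : Fin (n + 2)) : eP n (sb (n + 2) i) = bP n i :=
  Basis.equiv_apply (sb (n + 2)) i (bP n) (Equiv.refl _)

theorem bP_eq (n : ℕ) : (bP n : Fin (n + 2) → ℂ × Eu n) =
    Matrix.vecCons (1, 0) (Matrix.vecCons (Complex.I, 0) fun j => (0, sb n j)) := by
  funext i
  rw [bP, Basis.reindex_apply]
  refine Fin.cases ?_ (fun i => Fin.cases ?_ (fun j => ?_) i) i
  · have : (iP n).symm 0 = Sum.inl 0 := by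
      rw [Equiv.symm_apply_eq]; ext; simp [iP]
    rw [this]; ext <;> simp
  · have : (iP n).symm (Fin.succ 0) = Sum.inl 1 := by
      rw [Equiv.symm_apply_eq]; ext; simp [iP]
    rw [this]; ext <;> simp
  · have : (iP n).symm (Fin.succ (Fin.succ j)) = Sum.inr j := by
      rw [Equiv.symm_apply_eq]; ext; simp [iP]
    rw [this]; ext <;> simp

theorem measurePreserving_eP (n : ℕ) :
    MeasurePreserving (eP n) volume ((volume : Measure ℂ).prod (volume : Measure (Eu n))) := by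
  refine ⟨(eP n).continuous.measurable, ?_⟩
  have h1 : (volume : Measure (Eu (n + 2))) = (sb (n + 2)).addHaar :=
    (EuclideanSpace.basisFun (Fin (n + 2)) ℝ).addHaar_eq_volume.symm
  have h2 : (volume : Measure (Eu n)) = (sb n).addHaar :=
    (EuclideanSpace.basisFun (Fin n) ℝ).addHaar_eq_volume.symm
  have h3 : (volume : Measure ℂ) = Complex.basisOneI.addHaar :=
    Complex.orthonormalBasisOneI.addHaar_eq_volume.symm
  have h4 : (sb (n + 2)).map (eP n).toLinearEquiv = bP n := by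
    ext1 i
    exact eP_sb n i
  rw [h1, h2, h3, Basis.map_addHaar, h4, bP, Basis.addHaar_reindex, Basis.prod_addHaar]

theorem top_eP (n : ℕ) (c : Ext (ℂ × Eu n)) :
    top (n + 2) (pb ((eP n : Eu (n + 2) →L[ℝ] ℂ × Eu n) : Eu (n + 2) →ₗ[ℝ] ℂ × Eu n) (fx * fy * c))
      = top n (pb (LinearMap.inr ℝ ℂ (Eu n)) c) := by
  rw [top_pb]
  have h1 : (fun i => ((eP n : Eu (n + 2) →L[ℝ] ℂ × Eu n) : Eu (n + 2) →ₗ[ℝ] ℂ × Eu n)
      (sb (n + 2) i)) = bP n := funext (eP_sb n)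
  rw [h1, bP_eq, evA_ii, evA_ii]
  change evA _ n _ (fun j => LinearMap.inr ℝ ℂ (Eu n) (sb n j)) = _
  rw [← top_pb]
  congr 1
  have hx : Complex.reLm ∘ₗ LinearMap.fst ℝ ℂ (Eu n) ∘ₗ LinearMap.inr ℝ ℂ (Eu n) = 0 := by
    ext; simp
  have hy : Complex.imLm ∘ₗ LinearMap.fst ℝ ℂ (Eu n) ∘ₗ LinearMap.inr ℝ ℂ (Eu n) = 0 := by
    ext; simp
  simp only [fx, fy, dx, dy, pb_io, mul_assoc, ii_io_mul, map_sub, map_smul, map_mul,
    LinearMap.comp_assoc, hx, hy, map_zero, zero_mul, sub_zero]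
  simp

end Crest.Agent.X262.PL
end
end

-- ▼ part X262/PL/Int
section

/-!
# Row 262, PL (helper92), part Int: integrable (singular) forms, localisation

* `res X x`  : restriction of real forms to the tangent space;
* `Int d X o om` : the density of `om` is integrable; `J_add'`, `J_sum'`, `Int.congr`, `J_congr_ae`;
* `Clo.null` : a closed submanifold of smaller dimension is a null set;
* `localise` : additive properties of functions/forms which hold for small supports hold always;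
* `J_mul_d`  : `∫ a ∧ dψ = ∫ da ∧ ψ` for odd `a` which is `C¹` near the support of `ψ`;
* `Loc.reparam` : change of the local coordinate by a local diffeomorphism.
-/

set_option autoImplicit false
set_option linter.unusedSectionVars false

open Set Filter Topology Module MeasureTheory MeasureTheory.Measure
open scoped ContDiff
open Crest.Agent.R208.F Crest.Agent.R208.FI

noncomputable section

namespace Crest.Agent.X262.PL

variable {E : Type*} [NormedAddCommGroup E] [NormedSpace ℝ E] [FiniteDimensional ℝ E]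
  {n : ℕ} {X Z : Set E} {o a b ψ : E → Ext E} {x : E}

/-- restriction to the tangent space -/
abbrev res (X : Set E) (x : E) : Ext E →ₐ[ℝ] Ext (Tan X x) := pb (Tan X x).subtype

theorem evA_res {c c' : Ext E} (h : res X x c = res X x c') {q : ℕ} {w : Fin q → E}
    (hw : ∀ i, w i ∈ Tan X x) : evA E q c w = evA E q c' w := by
  have key : ∀ e : Ext E, evA E q e w = evA (Tan X x) q (res X x e) fun i => ⟨w i, hw i⟩ :=
    fun e => by rw [evA_pb]; rfl
  rw [key, key c', h]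

theorem dens_res (hX : Clo n X) (hx : x ∈ X) (h : res X x (a x) = res X x (b x)) :
    dens n X o a x = dens n X o b x := by
  rw [dens, dens, evA_res h (frame_isFrame (hX.finrank_Tan hx)).2]

/-- the density of the form `a` is integrable -/
def Int (n : ℕ) (X : Set E) (o a : E → Ext E) : Prop :=
  IntegrableOn (fun y => dens n X o a (toEuclidean.symm y)) ((toEuclidean : E ≃L[ℝ] _) '' X) μHE[n]

theorem Int.of_cont (hX : Clo n X) (ho : Ori n X o) (h : ContinuousOn a X) : Int n X o a :=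
  integrableOn_dens hX ho h

theorem Int.add (h : Int n X o a) (h' : Int n X o b) : Int n X o fun x => a x + b x := by
  simp only [Int, dens_add]
  exact Integrable.add h h'

theorem Int.smul (r : ℝ) (h : Int n X o a) : Int n X o fun x => r • a x := by
  simp only [Int, dens_smul]
  exact Integrable.const_mul h r

theorem Int.zero : Int n X o fun _ => 0 := by
  have : (fun y : EuclideanSpace ℝ (Fin (finrank ℝ E)) =>
      dens n X o (fun _ => 0) (toEuclidean.symm y)) = fun _ => 0 := by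
    funext y; simp [dens]
  rw [Int, this]
  exact integrableOn_zero

theorem Int.sum {ι : Type*} (s : Finset ι) {a : ι → E → Ext E} (h : ∀ i ∈ s, Int n X o (a i)) :
    Int n X o fun x => ∑ i ∈ s, a i x := by
  classical
  induction s using Finset.induction_on with
  | empty => simpa using Int.zero
  | insert i s hi ih =>
    simp only [Finset.sum_insert hi]
    exact (h i (Finset.mem_insert_self _ _)).add (ih fun j hj => h j (Finset.mem_insert_of_mem hj))

theorem J_add' (h : Int n X o a) (h' : Int n X o b) :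
    J n X o (fun x => a x + b x) = J n X o a + J n X o b := by
  rw [J, J, J, ← integral_add h h']
  simp only [dens_add]

theorem J_sum' {ι : Type*} (s : Finset ι) {a : ι → E → Ext E} (h : ∀ i ∈ s, Int n X o (a i)) :
    J n X o (fun x => ∑ i ∈ s, a i x) = ∑ i ∈ s, J n X o (a i) := by
  classical
  induction s using Finset.induction_on with
  | empty => simpa using J_zero
  | insert i s hi ih =>
    simp only [Finset.sum_insert hi]
    rw [J_add' (h i (Finset.mem_insert_self _ _))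
      (Int.sum s fun j hj => h j (Finset.mem_insert_of_mem hj)),
      ih fun j hj => h j (Finset.mem_insert_of_mem hj)]

/-- `Z` is negligible for `n`-dimensional integrals -/
def Null (n : ℕ) (Z : Set E) : Prop := μHE[n] ((toEuclidean : E ≃L[ℝ] _) '' Z) = 0

theorem Null.of_clo {m : ℕ} (hZ : Clo m Z) (h : m < n) : Null n Z :=
  (euclideanHausdorffMeasure_zero_or_top h _).resolve_right hZ.measure_lt_top.ne

theorem Null.iUnion {ι : Type*} [Countable ι] {Z : ι → Set E} (h : ∀ i, Null n (Z i)) :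
    Null n (⋃ i, Z i) := by
  rw [Null, image_iUnion]
  exact measure_iUnion_null h

theorem dens_ae (hX : Clo n X) (hZ : Null n Z)
    (h : ∀ x ∈ X, x ∉ Z → res X x (a x) = res X x (b x)) :
    (fun y => dens n X o a (toEuclidean.symm y))
      =ᵐ[μHE[n].restrict ((toEuclidean : E ≃L[ℝ] _) '' X)]
      fun y => dens n X o b (toEuclidean.symm y) := by
  have h1 : ∀ᵐ y ∂μHE[n], y ∉ (toEuclidean : E ≃L[ℝ] _) '' Z := measure_eq_zero_iff_ae_notMem.1 hZ
  filter_upwards [ae_restrict_mem hX.measurableSet, ae_restrict_of_ae h1] with y hy hyZ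
  obtain ⟨x, hx, rfl⟩ := hy
  rw [ContinuousLinearEquiv.symm_apply_apply]
  exact dens_res hX hx (h x hx fun hz => hyZ ⟨x, hz, rfl⟩)

theorem Int.congr (hX : Clo n X) (hZ : Null n Z)
    (h : ∀ x ∈ X, x ∉ Z → res X x (a x) = res X x (b x)) (hb : Int n X o b) : Int n X o a :=
  Integrable.congr hb (dens_ae hX hZ h).symm

theorem J_congr_ae (hX : Clo n X) (hZ : Null n Z)
    (h : ∀ x ∈ X, x ∉ Z → res X x (a x) = res X x (b x)) : J n X o a = J n X o b :=
  integral_congr_ae (dens_ae hX hZ h)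

theorem null_empty : Null n (∅ : Set E) := by simp [Null]

theorem J_congr_res (hX : Clo n X) (h : ∀ x ∈ X, res X x (a x) = res X x (b x)) :
    J n X o a = J n X o b := J_congr_ae hX null_empty fun x hx _ => h x hx

theorem Int.congr' (hX : Clo n X) (h : ∀ x ∈ X, res X x (a x) = res X x (b x))
    (hb : Int n X o b) : Int n X o a := Int.congr hX null_empty (fun x hx _ => h x hx) hb

/-- integrability of a form vanishing outside a chart -/
theorem Int.of_chart (hX : Clo n X) {f : Eu n → E} {V : Set (Eu n)} (hf : Chart n X f V)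
    (h0 : ∀ x ∈ X, x ∉ f '' V → a x = 0)
    (h : IntegrableOn (fun u => top n (pull f a u) * Real.sign (top n (pull f o u))) V) :
    Int n X o a := by
  rw [← integrableOn_chart hf hf.isOpen.measurableSet le_rfl] at h
  refine h.of_forall_sdiff_eq_zero hX.measurableSet ?_
  rintro _ ⟨⟨x, hx, rfl⟩, hx2⟩
  have hx3 : x ∉ f '' V := fun h => hx2 ⟨x, h, rfl⟩
  simp [dens, h0 x hx hx3]

/-! ### localisation -/

/-- **localisation principle** -/
theorem localise {G : Type*} [NormedAddCommGroup G] [NormedSpace ℝ G] (hX : IsCompact X)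
    {k : ℕ∞} {P : (E → G) → Prop} (h0 : P fun _ => 0)
    (hadd : ∀ a b : E → G, (∀ x ∈ X, ContDiffAt ℝ k a x) → (∀ x ∈ X, ContDiffAt ℝ k b x) →
      P a → P b → P fun x => a x + b x)
    (hcongr : ∀ a b : E → G, (∀ x ∈ X, a =ᶠ[𝓝 x] b) → P a → P b)
    (hloc : ∀ x ∈ X, ∃ U ∈ 𝓝 x, ∀ a : E → G, (∀ x ∈ X, ContDiffAt ℝ k a x) → tsupport a ⊆ U → P a)
    {φ : E → G} (hφ : ∀ x ∈ X, ContDiffAt ℝ k φ x) : P φ := by
  classical
  have key : ∀ x : E, x ∈ X → ∃ χ : E → ℝ, ContDiff ℝ k χ ∧ (∀ y, 0 ≤ χ y) ∧ 0 < χ x ∧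
      ∀ a : E → G, (∀ x ∈ X, ContDiffAt ℝ k a x) → P fun y => χ y • a y := by
    intro x hx
    obtain ⟨U, hU, hP⟩ := hloc x hx
    obtain ⟨χ, h1, -, h3, h4, h5⟩ := exists_contDiff_tsupport_subset (n := k) hU
    refine ⟨χ, h3, fun y => (h4 ⟨y, rfl⟩).1, by rw [h5]; norm_num, fun a ha => hP _
      (fun y hy => h3.contDiffAt.smul (ha y hy)) ((tsupport_smul_subset_left _ _).trans h1)⟩
  choose! χ hχ hχ0 hχp hχP using key
  obtain ⟨t, htX, ht⟩ := hX.elim_nhds_subcover (fun x => {y | 0 < χ x y}) (fun x hx =>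
    (isOpen_lt continuous_const (hχ x hx).continuous).mem_nhds (hχp x hx))
  set Φ : E → ℝ := fun y => ∑ x ∈ t, χ x y with hΦ
  have hΦC : ContDiff ℝ k Φ := ContDiff.sum fun x hx => hχ x (htX x hx)
  have hΦp : ∀ y ∈ X, 0 < Φ y := by
    intro y hy
    obtain ⟨x, hx, hxy⟩ := mem_iUnion₂.1 (ht hy)
    exact Finset.sum_pos' (fun z hz => hχ0 z (htX z hz) y) ⟨x, hx, hxy⟩
  set β : E → G := fun y => (Φ y)⁻¹ • φ y with hβ
  have hβC : ∀ x ∈ X, ContDiffAt ℝ k β x := fun x hx =>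
    (hΦC.contDiffAt.inv (hΦp x hx).ne').smul (hφ x hx)
  have hs : ∀ s ⊆ t, P fun y => ∑ i ∈ s, χ i y • β y := by
    intro s hs
    induction s using Finset.induction_on with
    | empty => simpa using h0
    | insert i s hi ih =>
      simp only [Finset.sum_insert hi]
      have hi' : i ∈ X := htX i (hs (Finset.mem_insert_self _ _))
      have hs' : s ⊆ t := fun j hj => hs (Finset.mem_insert_of_mem hj)
      exact hadd _ _ (fun x hx => (hχ i hi').contDiffAt.smul (hβC x hx))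
        (fun x hx => ContDiffAt.sum fun j hj =>
          (hχ j (htX j (hs' hj))).contDiffAt.smul (hβC x hx)) (hχP i hi' β hβC) (ih hs')
  refine hcongr _ _ (fun x hx => ?_) (hs t le_rfl)
  filter_upwards [hΦC.continuous.continuousAt.eventually (lt_mem_nhds (hΦp x hx))] with y hy
  rw [← Finset.sum_smul, hβ, smul_smul]
  change (Φ y * (Φ y)⁻¹) • φ y = φ y
  rw [mul_inv_cancel₀ hy.ne', one_smul]

theorem d_of_notMem (h : x ∉ tsupport ψ) : d ψ x = 0 := by
  rw [d_congr (notMem_tsupport_iff_eventuallyEq.1 h)]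
  exact d_const 0 x

/-- integration by parts against an odd form which is `C¹` along the support of `ψ` -/
theorem J_mul_d (hX : Clo n X) (ho : Ori n X o) (hψ : ∀ x ∈ X, ContDiffAt ℝ 1 ψ x)
    (ha : ∀ x ∈ X, x ∈ tsupport ψ → ContDiffAt ℝ 1 a x ∧ inv (a x) = - a x) :
    Int n X o (fun x => a x * d ψ x) ∧ Int n X o (fun x => d a x * ψ x) ∧
      J n X o (fun x => a x * d ψ x) = J n X o (fun x => d a x * ψ x) := by
  have hz : ∀ x, x ∉ tsupport ψ → ∀ᶠ y in 𝓝 x, y ∉ tsupport ψ := fun x hx =>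
    (isClosed_tsupport ψ).isOpen_compl.mem_nhds hx
  have h1 : ContinuousOn (fun x => a x * d ψ x) X := by
    intro x hx
    by_cases h : x ∈ tsupport ψ
    · exact (contDiffAt_mul (n := 0) ((ha x hx h).1.of_le (by norm_num))
        (contDiffAt_d (hψ x hx) (by norm_num))).continuousAt.continuousWithinAt
    · refine (continuousAt_const (y := (0 : Ext E))).congr ?_ |>.continuousWithinAt
      filter_upwards [hz x h] with y hy
      rw [d_of_notMem hy, mul_zero]
  have h2 : ContinuousOn (fun x => d a x * ψ x) X := by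
    intro x hx
    by_cases h : x ∈ tsupport ψ
    · exact (contDiffAt_mul (n := 0) (contDiffAt_d (ha x hx h).1 (by norm_num))
        ((hψ x hx).of_le (by norm_num))).continuousAt.continuousWithinAt
    · refine (continuousAt_const (y := (0 : Ext E))).congr ?_ |>.continuousWithinAt
      filter_upwards [hz x h] with y hy
      rw [image_eq_zero_of_notMem_tsupport hy, mul_zero]
  have h3 : ∀ x, x ∉ tsupport ψ → (fun x => a x * ψ x) =ᶠ[𝓝 x] fun _ => 0 := fun x h => by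
    filter_upwards [hz x h] with y hy
    rw [image_eq_zero_of_notMem_tsupport hy, mul_zero]
  have h4 : ∀ x ∈ X, ContDiffAt ℝ 1 (fun x => a x * ψ x) x := by
    intro x hx
    by_cases h : x ∈ tsupport ψ
    · exact contDiffAt_mul (ha x hx h).1 (hψ x hx)
    · exact contDiffAt_const.congr_of_eventuallyEq (h3 x h)
  refine ⟨Int.of_cont hX ho h1, Int.of_cont hX ho h2, ?_⟩
  have h5 := J_d hX ho h4
  rw [J_congr' (om' := fun x => d a x * ψ x - a x * d ψ x) hX, J_sub hX ho h2 h1] at h5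
  · exact (sub_eq_zero.1 h5).symm
  · intro x hx
    by_cases h : x ∈ tsupport ψ
    · rw [d_mul ((ha x hx h).1.differentiableAt (by simp)) ((hψ x hx).differentiableAt (by simp)),
        (ha x hx h).2, neg_mul, sub_eq_add_neg]
    · rw [d_congr (h3 x h), d_const, d_of_notMem h, image_eq_zero_of_notMem_tsupport h, mul_zero,
        mul_zero, sub_zero]

/-! ### change of the local coordinate -/

theorem Loc.reparam {P Q : Type*} [NormedAddCommGroup P] [NormedSpace ℝ P] [FiniteDimensional ℝ P]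
    [NormedAddCommGroup Q] [NormedSpace ℝ Q] [FiniteDimensional ℝ Q] {f : P → E} {W : Set P}
    {O : Set E} {ℓ : E → P} (h : Loc X f W O ℓ) {T : P → Q} (hT : ∀ u ∈ W, ContDiffAt ℝ ∞ T u)
    {u₀ : P} (hu₀ : u₀ ∈ W) (hs : Function.Surjective (fderiv ℝ T u₀))
    (hdim : finrank ℝ P = finrank ℝ Q) :
    ∃ (τ : Q → P) (W₁ : Set Q) (O₁ : Set E), Loc X (fun p => f (τ p)) W₁ O₁ (fun q => T (ℓ q)) ∧
      T u₀ ∈ W₁ ∧ τ (T u₀) = u₀ ∧ ∀ p ∈ W₁, τ p ∈ W ∧ T (τ p) = p := by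
  have : CompleteSpace P := FiniteDimensional.complete ℝ P
  have hTd : ∀ w ∈ W, HasFDerivAt T (fderiv ℝ T w) w := fun w hw =>
    ((hT w hw).differentiableAt (by simp)).hasFDerivAt
  set A : P ≃L[ℝ] Q := (LinearEquiv.ofBijective (fderiv ℝ T u₀ : P →ₗ[ℝ] Q)
    ⟨(LinearMap.injective_iff_surjective_of_finrank_eq_finrank hdim).2 hs, hs⟩
    ).toContinuousLinearEquiv with hA
  have hA' : (A : P →L[ℝ] Q) = fderiv ℝ T u₀ := by ext1 v; rfl
  have hT0 : HasFDerivAt T (A : P →L[ℝ] Q) u₀ := by rw [hA']; exact hTd u₀ hu₀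
  set e := (hT u₀ hu₀).toOpenPartialHomeomorph T hT0 (by simp) with he
  have hcont : ContinuousOn (fun w => fderiv ℝ T w) W := by
    have h1 : ContDiffOn ℝ ∞ T W := fun w hw => (hT w hw).contDiffWithinAt
    exact h1.continuousOn_fderiv_of_isOpen h.oW (by simp)
  set W' : Set P := W ∩ (fun w => fderiv ℝ T w) ⁻¹'
    (range ((↑) : (P ≃L[ℝ] Q) → (P →L[ℝ] Q))) with hW'
  have hW'o : IsOpen W' := hcont.isOpen_inter_preimage h.oW ContinuousLinearEquiv.isOpen
  set e' := e.restrOpen W' hW'o with he'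
  have hsrc : e'.source = e.source ∩ W' := rfl
  have hw₀s : u₀ ∈ e'.source :=
    ⟨(hT u₀ hu₀).mem_toOpenPartialHomeomorph_source hT0 (by simp), hu₀, A, hA'⟩
  have hsm : ∀ p ∈ e'.target, ContDiffAt ℝ ∞ e'.symm p := by
    intro p hp
    have hps : e'.symm p ∈ e'.source := e'.map_target hp
    obtain ⟨B, hB⟩ := hps.2.2
    have hB' : (B : P →L[ℝ] Q) = fderiv ℝ T (e'.symm p) := hB
    refine e'.contDiffAt_symm (f₀' := B) hp ?_ (hT _ hps.2.1)
    rw [hB']; exact hTd _ hps.2.1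
  have hW : ∀ p ∈ e'.target, e'.symm p ∈ W := fun p hp => (e'.map_target hp).2.1
  have h1 := h.restrict (W' := e'.source) (fun u hu => hu.2.1) e'.open_source
  refine ⟨e'.symm, e'.target, O ∩ ℓ ⁻¹' e'.source, ⟨e'.open_target, h1.oO, fun p hp => ?_,
    fun q hq => ?_, ?_, fun p hp => ?_, fun q hq => e'.map_source hq.2⟩, e'.map_source hw₀s,
    e'.left_inv hw₀s, fun p hp => ⟨hW p hp, e'.right_inv hp⟩⟩
  · exact ((h.fC' (hW p hp)).comp p (hsm p hp)).contDiffWithinAt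
  · exact ((hT _ (h.maps q hq.1)).comp q (h.lC' hq.1)).contDiffWithinAt
  · have h2 : e'.symm '' e'.target = e'.source := e'.symm.image_source_eq_target
    rw [← h1.img, ← h2, image_image]
  · rw [h.inv _ (hW p hp)]
    exact e'.right_inv hp

end Crest.Agent.X262.PL
end
end

-- ▼ part X262/PL/Chart
section

/-!
# Row 262, PL (helper92), part Chart: local equations of cooriented submanifolds of codimension 2

* `Dv n X Y oY g` : `g : Y → X` is an embedding of the closed oriented `n`-manifold `Y`;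
* `LEq n X o Y oY g z x` : `z : E → ℂ` is a positive local equation of `g (Y)` in `X` at `x`;
* `LEq.adapt` : adapted charts; `LEq.sing` : the local Poincaré–Lelong formula.
-/

set_option autoImplicit false
set_option linter.unusedSectionVars false

open Set Filter Topology Module MeasureTheory
open scoped ContDiff
open Crest.Agent.R208.F Crest.Agent.R208.FI
open Crest.Agent.R208.CW (SMap two_le)

noncomputable section

namespace Crest.Agent.X262.PL

/-! ### linear algebra -/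

/-- the coefficient of the top form on `ℂ × ℝ^n` -/
def Tp (n : ℕ) : Ext (ℂ × Eu n) →ₗ[ℝ] ℝ := top (n + 2) ∘ₗ
  (pb ((eP n : Eu (n + 2) →L[ℝ] ℂ × Eu n) : Eu (n + 2) →ₗ[ℝ] ℂ × Eu n)).toLinearMap

theorem Tp_apply (n : ℕ) (c : Ext (ℂ × Eu n)) : Tp n c = top (n + 2)
    (pb ((eP n : Eu (n + 2) →L[ℝ] ℂ × Eu n) : Eu (n + 2) →ₗ[ℝ] ℂ × Eu n) c) := rfl

theorem Tp_eq (n : ℕ) (c : Ext (ℂ × Eu n)) : Tp n c = evA _ (n + 2) c (bP n) := by
  rw [Tp_apply, top_pb]
  exact congrArg _ (funext (eP_sb n))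

theorem evA_fxfy {Q : Type*} [NormedAddCommGroup Q] [NormedSpace ℝ Q] [FiniteDimensional ℝ Q]
    {n : ℕ} (c : Ext (ℂ × Q)) (a b : Q) (u : Fin n → Q) :
    evA _ (n + 2) (fx * fy * c)
      (Matrix.vecCons (1, a) (Matrix.vecCons (Complex.I, b) fun j => (0, u j)))
      = evA Q n (pb (LinearMap.inr ℝ ℂ Q) c) u := by
  rw [evA_ii, evA_ii]
  change evA _ n _ (fun j => LinearMap.inr ℝ ℂ Q (u j)) = _
  rw [← evA_pb]
  congr 2
  have hx : Complex.reLm ∘ₗ LinearMap.fst ℝ ℂ Q ∘ₗ LinearMap.inr ℝ ℂ Q = 0 := by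
    ext; simp
  have hy : Complex.imLm ∘ₗ LinearMap.fst ℝ ℂ Q ∘ₗ LinearMap.inr ℝ ℂ Q = 0 := by
    ext; simp
  simp only [fx, fy, dx, dy, pb_io, mul_assoc, ii_io_mul, map_sub, map_smul, map_mul,
    LinearMap.comp_assoc, hx, hy, map_zero, zero_mul, sub_zero]
  simp

theorem Tp_pos {n : ℕ} {c : Ext (ℂ × Eu n)} {κ : Ext (Eu n)} {a b : Eu n} {u : Fin n → Eu n}
    (h : 0 < evA _ (n + 2) c
      (Matrix.vecCons (1, a) (Matrix.vecCons (Complex.I, b) fun j => (0, u j))) * evA _ n κ u) :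
    0 < Tp n c * top n κ := by
  have hκ : pb (LinearMap.inr ℝ ℂ (Eu n)) (pb (LinearMap.snd ℝ ℂ (Eu n)) κ) = κ := by
    rw [pb_comp, LinearMap.snd_comp_inr, pb_id]
  have h1 := evA_fxfy (pb (LinearMap.snd ℝ ℂ (Eu n)) κ) a b u
  have h2 : Tp n (fx * fy * pb (LinearMap.snd ℝ ℂ (Eu n)) κ) = top n κ := by
    rw [Tp_apply, top_eP, hκ]
  rw [hκ] at h1
  rw [← h1, AlternatingMap.eq_smul_basis_det (bP n) (evA _ (n + 2) c),
    AlternatingMap.eq_smul_basis_det (bP n) (evA _ (n + 2) (fx * fy * _)), ← Tp_eq, ← Tp_eq, h2,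
    AlternatingMap.smul_apply, AlternatingMap.smul_apply, smul_eq_mul, smul_eq_mul,
    mul_mul_mul_comm] at h
  by_contra hs
  exact absurd h (not_lt.2 (mul_nonpos_of_nonpos_of_nonneg (not_lt.1 hs) (mul_self_nonneg _)))

theorem sign_eq_of_pos {s t : ℝ} (h : 0 < s * t) : Real.sign s = Real.sign t := by
  rcases pos_and_pos_or_neg_and_neg_of_mul_pos h with ⟨h2, h3⟩ | ⟨h2, h3⟩
  · rw [Real.sign_of_pos h2, Real.sign_of_pos h3]
  · rw [Real.sign_of_neg h2, Real.sign_of_neg h3]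

variable {E E' : Type*} [NormedAddCommGroup E] [NormedSpace ℝ E] [FiniteDimensional ℝ E]
  [NormedAddCommGroup E'] [NormedSpace ℝ E'] [FiniteDimensional ℝ E']

/-- `g : Y → X` is a smooth embedding of the closed oriented `n`-manifold `(Y, oY)` -/
structure Dv (n : ℕ) (X : Set E) (Y : Set E') (oY : E' → Ext E') (g : E' → E) : Prop where
  clo : Clo n Y
  ori : Ori n Y oY
  smap : SMap Y X g
  inj : InjOn g Y
  imm : ∀ y ∈ Y, ∀ v ∈ Tan Y y, fderiv ℝ g y v = 0 → v = 0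

/-- `z` is a positive local equation of `g (Y)` in the oriented `(n+2)`-manifold `(X, o)` at `x` -/
structure LEq (n : ℕ) (X : Set E) (o : E → Ext E) (Y : Set E') (oY : E' → Ext E') (g : E' → E)
    (z : E → ℂ) (x : E) : Prop where
  near : ∀ᶠ q in 𝓝[X] x, ContDiffAt ℝ ∞ z q ∧ (z q = 0 ↔ q ∈ g '' Y)
  pos : ∀ y ∈ Y, g y = x → ∃ (v₁ v₂ : E) (w : Fin n → E'), v₁ ∈ Tan X x ∧ v₂ ∈ Tan X x ∧
    (∀ j, w j ∈ Tan Y y) ∧ fderiv ℝ z x v₁ = 1 ∧ fderiv ℝ z x v₂ = Complex.I ∧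
    0 < evA E (n + 2) (o x) (Matrix.vecCons v₁ (Matrix.vecCons v₂ fun j => fderiv ℝ g y (w j)))
      * evA E' n (oY y) w

variable {n : ℕ} {X : Set E} {o ψ : E → Ext E} {Y : Set E'} {oY : E' → Ext E'} {g : E' → E}
  {z : E → ℂ} {x : E}

theorem Dv.clo_image (h : Dv n X Y oY g) : Clo n (g '' Y) :=
  R208.CM.clo_image_of_inj h.clo h.smap.smooth h.inj h.imm

theorem Dv.isClosed (h : Dv n X Y oY g) : IsClosed (g '' Y) := h.clo_image.compact.isClosed

theorem Dv.null (h : Dv n X Y oY g) : Null (n + 2) (g '' Y) := Null.of_clo h.clo_image (by omega)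

theorem Dv.exists_inv (h : Dv n X Y oY g) :
    ∃ G : E → E', ContDiff ℝ ∞ G ∧ ∀ y ∈ Y, G (g y) = y :=
  R208.CM.exists_smooth_inv h.clo h.smap.smooth h.inj h.imm

theorem LEq.sm (h : LEq n X o Y oY g z x) (hx : x ∈ X) : ContDiffAt ℝ ∞ z x :=
  (h.near.self_of_nhdsWithin hx).1

theorem LEq.zero_iff (h : LEq n X o Y oY g z x) (hx : x ∈ X) : z x = 0 ↔ x ∈ g '' Y :=
  (h.near.self_of_nhdsWithin hx).2

/-- adapted charts -/
theorem LEq.adapt (hX : Clo (n + 2) X) (hD : Dv n X Y oY g) (h : LEq n X o Y oY g z x) {y : E'}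
    (hy : y ∈ Y) (hyx : g y = x) : ∃ (f : ℂ × Eu n → E) (O : Set E) (ℓ : E → ℂ × Eu n)
      (fY : Eu n → E') (w₀ : Eu n) (r : ℝ), 0 < r ∧
      Loc X f (Metric.ball (0, w₀) r) O ℓ ∧ x ∈ O ∧ Chart n Y fY (Metric.ball w₀ r) ∧ fY w₀ = y ∧
      (∀ p ∈ Metric.ball ((0 : ℂ), w₀) r, z (f p) = p.1 ∧ ContDiffAt ℝ ∞ z (f p)) ∧
      (∀ w ∈ Metric.ball w₀ r, f (0, w) = g (fY w)) ∧
      ∀ y' ∈ Y, g y' ∈ O → y' ∈ fY '' Metric.ball w₀ r := by
  have hx : x ∈ X := hyx ▸ hD.smap.maps hy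
  obtain ⟨G, hG, hGg⟩ := hD.exists_inv
  obtain ⟨fX, WX, OX, ℓX, hlX, hxO⟩ := hX.sub.exists_loc hx
  obtain ⟨fY, WY, OY, ℓY, hlY, hyO⟩ := hD.clo.sub.exists_loc hy
  obtain ⟨N, hNo, hxN, hN⟩ := mem_nhdsWithin.1 h.near
  have hN'o : IsOpen (N ∩ G ⁻¹' OY) := hNo.inter (hlY.oO.preimage hG.continuous)
  have hxN' : x ∈ N ∩ G ⁻¹' OY := ⟨hxN, by rw [mem_preimage, ← hyx, hGg y hy]; exact hyO⟩
  have hl2 := hlX.restrictO hN'o
  have hfu : fX (ℓX x) = x := hlX.right_inv hx hxO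
  have hu₀ : ℓX x ∈ WX ∩ fX ⁻¹' (N ∩ G ⁻¹' OY) :=
    ⟨hlX.maps x hxO, by rw [mem_preimage, hfu]; exact hxN'⟩
  set w₀ := ℓY y with hw₀
  have hw₀W : w₀ ∈ WY := hlY.maps y hyO
  have hfw : fY w₀ = y := hlY.right_inv hy hyO
  set Φ : E → ℂ × Eu n := fun q => (z q, ℓY (G q)) with hΦ
  have hΦC : ∀ q ∈ X, q ∈ N ∩ G ⁻¹' OY → ContDiffAt ℝ ∞ Φ q := fun q hq hqN =>
    (hN ⟨hqN.1, hq⟩).1.prodMk ((hlY.lC' hqN.2).comp q hG.contDiffAt)
  have hTC : ∀ u ∈ WX ∩ fX ⁻¹' (N ∩ G ⁻¹' OY), ContDiffAt ℝ ∞ (fun u => Φ (fX u)) u :=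
    fun u hu => (hΦC _ (hlX.mem hu.1).1 hu.2).comp u (hlX.fC' hu.1)
  have hΦd : HasFDerivAt Φ (fderiv ℝ Φ x) x :=
    ((hΦC x hx hxN').differentiableAt (by simp)).hasFDerivAt
  have hΦ1 : ∀ v, (fderiv ℝ Φ x v).1 = fderiv ℝ z x v := fun v => by
    have := (hasFDerivAt_fst.comp x hΦd).fderiv
    rw [show Prod.fst ∘ Φ = z from rfl] at this
    rw [this]; rfl
  have hfYd : HasFDerivAt fY (fderiv ℝ fY w₀) w₀ :=
    ((hlY.fC' hw₀W).differentiableAt (by simp)).hasFDerivAt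
  have hk : HasFDerivAt (fun w => g (fY w)) ((fderiv ℝ g y).comp (fderiv ℝ fY w₀)) w₀ := by
    have a1 : HasFDerivAt g (fderiv ℝ g y) (fY w₀) := by
      rw [hfw]; exact (hD.smap.diff hy).hasFDerivAt
    exact a1.comp w₀ hfYd
  have hΦk : ∀ a, fderiv ℝ Φ x (fderiv ℝ g y (fderiv ℝ fY w₀ a)) = (0, a) := by
    intro a
    have a1 : HasFDerivAt Φ (fderiv ℝ Φ x) (g (fY w₀)) := by rw [hfw, hyx]; exact hΦd
    have a2 := a1.comp w₀ hk
    have a3 : HasFDerivAt (Φ ∘ fun w => g (fY w)) (ContinuousLinearMap.inr ℝ ℂ (Eu n)) w₀ := by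
      refine (ContinuousLinearMap.inr ℝ ℂ (Eu n)).hasFDerivAt.congr_of_eventuallyEq ?_
      have a4 : ∀ᶠ w in 𝓝 w₀, g (fY w) ∈ N :=
        hk.continuousAt.eventually (hNo.mem_nhds (by simp only [hfw, hyx]; exact hxN))
      filter_upwards [a4, hlY.oW.mem_nhds hw₀W] with w hwN hw
      have hwY := (hlY.mem hw).1
      refine Prod.ext ((hN ⟨hwN, hD.smap.maps hwY⟩).2.2 ⟨_, hwY, rfl⟩) ?_
      change ℓY (G (g (fY w))) = w
      rw [hGg _ hwY, hlY.inv w hw]
    exact congrArg (fun L => L a) (a2.unique a3)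
  have hs : Function.Surjective (fderiv ℝ (fun u => Φ (fX u)) (ℓX x)) := by
    have a1 : HasFDerivAt Φ (fderiv ℝ Φ x) (fX (ℓX x)) := by rw [hfu]; exact hΦd
    have a2 := (a1.comp (ℓX x)
      ((hlX.fC' hu₀.1).differentiableAt (by simp)).hasFDerivAt).fderiv
    rw [show (fun u => Φ (fX u)) = Φ ∘ fX from rfl, a2]
    obtain ⟨v₁, v₂, -, h1, h2, -, h3, h4, -⟩ := h.pos y hy hyx
    rintro ⟨ζ, a⟩
    set v : E := ζ.re • v₁ + ζ.im • v₂ with hv
    have hv1 : (fderiv ℝ Φ x v).1 = ζ := by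
      rw [hΦ1, hv, map_add, map_smul, map_smul, h3, h4]
      apply Complex.ext <;> simp
    have hT : v + fderiv ℝ g y (fderiv ℝ fY w₀ (a - (fderiv ℝ Φ x v).2)) ∈ Tan X (fX (ℓX x)) := by
      rw [hfu]
      refine add_mem (add_mem (Submodule.smul_mem _ _ h1) (Submodule.smul_mem _ _ h2)) ?_
      rw [← hyx]
      refine fderiv_mapsTo_Tan (hD.smap.diff hy) (fun q hq => hD.smap.maps hq) ?_
      rw [← hfw]
      exact hlY.chart.fderiv_mem hw₀W _
    rw [← hlX.range_eq_Tan hu₀.1] at hT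
    obtain ⟨u, hu⟩ := hT
    refine ⟨u, ?_⟩
    rw [ContinuousLinearMap.comp_apply, show fderiv ℝ fX (ℓX x) u = _ from hu, map_add, hΦk]
    exact Prod.ext (by simp [hv1]) (by simp)
  obtain ⟨τ, W₁, O₁, hl3, hp₀, hτ₀, hτ⟩ := Loc.reparam hl2 hTC hu₀ hs (by simp [add_comm])
  have hΦx : Φ (fX (ℓX x)) = (0, w₀) := by
    rw [hfu]
    refine Prod.ext ((h.zero_iff hx).2 ⟨y, hy, hyx⟩) ?_
    change ℓY (G x) = w₀
    rw [← hyx, hGg y hy]
  rw [hΦx] at hp₀ hτ₀
  obtain ⟨r, hr, hrW⟩ := Metric.isOpen_iff.1 hl3.oW _ hp₀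
  have hl4 := hl3.restrict hrW Metric.isOpen_ball
  have hb : ∀ w ∈ Metric.ball w₀ r, ((0 : ℂ), w) ∈ Metric.ball ((0 : ℂ), w₀) r := fun w hw => by
    rw [← ball_prod_same]; exact ⟨Metric.mem_ball_self hr, hw⟩
  have hfX : ∀ p ∈ W₁, fX (τ p) ∈ X := fun p hp => (hlX.mem (hτ p hp).1.1).1
  have hz : ∀ w ∈ Metric.ball w₀ r, w ∈ WY ∧ fX (τ (0, w)) = g (fY w) := by
    intro w hw
    have hp := hrW (hb w hw)
    obtain ⟨⟨-, a1⟩, a2⟩ := hτ _ hp
    obtain ⟨y', hy', a3⟩ := (hN ⟨a1.1, hfX _ hp⟩).2.1 (congrArg Prod.fst a2)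
    have a4 : ℓY (G (fX (τ (0, w)))) = w := congrArg Prod.snd a2
    have a5 : G (fX (τ (0, w))) ∈ OY := a1.2
    rw [← a3, hGg y' hy'] at a4 a5
    rw [← a4, hlY.right_inv hy' a5, a4]
    exact ⟨a4 ▸ hlY.maps y' a5, a3.symm⟩
  refine ⟨fun p => fX (τ p), _, _, fY, w₀, r, hr, hl4, ?_,
    hlY.chart.mono (fun w hw => (hz w hw).1) Metric.isOpen_ball, hfw, fun p hp => ?_,
    fun w hw => (hz w hw).2, fun y' hy' hO => ?_⟩
  · have := (hl4.mem (Metric.mem_ball_self hr)).2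
    rwa [hτ₀, hfu] at this
  · exact ⟨congrArg Prod.fst (hτ p (hrW hp)).2, (hN ⟨(hτ p (hrW hp)).1.2.1, hfX p (hrW hp)⟩).1⟩
  · have a1 : g y' ∈ (fun p => fX (τ p)) '' Metric.ball ((0 : ℂ), w₀) r := by
      rw [hl4.img]; exact ⟨hD.smap.maps hy', hO⟩
    obtain ⟨p, hp, a2⟩ := a1
    obtain ⟨⟨-, a3⟩, a4⟩ := hτ _ (hrW hp)
    have a5 : ℓY (G (fX (τ p))) = p.2 := congrArg Prod.snd a4
    have a6 : G (fX (τ p)) ∈ OY := a3.2
    have a7 : fX (τ p) = g y' := a2
    rw [a7, hGg y' hy'] at a5 a6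
    refine ⟨ℓY y', ?_, hlY.right_inv hy' a6⟩
    rw [← ball_prod_same] at hp
    rw [a5]; exact hp.2

/-- extension by zero of the pull-back of a form supported in a chart -/
theorem Loc.ext_zero {P : Type*} [NormedAddCommGroup P] [NormedSpace ℝ P] [FiniteDimensional ℝ P]
    {f : P → E} {W : Set P} {O : Set E} {ℓ : E → P} (hX : IsCompact X) (h : Loc X f W O ℓ)
    (hψ : ∀ q ∈ X, ContDiffAt ℝ 1 ψ q) (hs : tsupport ψ ⊆ O) :
    ∃ b : P → Ext P, ContDiff ℝ 1 b ∧ HasCompactSupport b ∧ (∀ p ∈ W, b =ᶠ[𝓝 p] pull f ψ) ∧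
      ∀ p, p ∉ W → b =ᶠ[𝓝 p] fun _ => 0 := by
  classical
  have hK : IsCompact (ℓ '' (X ∩ tsupport ψ)) :=
    (hX.inter_right (isClosed_tsupport ψ)).image_of_continuousOn
      (h.lC.continuousOn.mono fun q hq => hs hq.2)
  have hKW : ℓ '' (X ∩ tsupport ψ) ⊆ W := by
    rintro _ ⟨q, hq, rfl⟩; exact h.maps q (hs hq.2)
  set b : P → Ext P := W.indicator (pull f ψ) with hb
  have hbV : ∀ u ∈ W, b =ᶠ[𝓝 u] pull f ψ := by
    intro u hu
    filter_upwards [h.oW.mem_nhds hu] with v hv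
    rw [hb, indicator_of_mem hv]
  have hb0 : ∀ u, u ∉ ℓ '' (X ∩ tsupport ψ) → b =ᶠ[𝓝 u] fun _ => 0 := by
    intro u hu
    filter_upwards [hK.isClosed.isOpen_compl.mem_nhds hu] with v hv
    by_cases hvV : v ∈ W
    · have : f v ∉ tsupport ψ := fun h' => hv ⟨f v, ⟨(h.mem hvV).1, h'⟩, h.inv v hvV⟩
      rw [hb, indicator_of_mem hvV, pull, image_eq_zero_of_notMem_tsupport this, map_zero]
    · rw [hb, indicator_of_notMem hvV]
  refine ⟨b, contDiff_iff_contDiffAt.2 fun u => ?_,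
    HasCompactSupport.intro hK fun u hu => (hb0 u hu).eq_of_nhds, hbV,
    fun p hp => hb0 p fun h' => hp (hKW h')⟩
  by_cases hu : u ∈ W
  · exact (contDiffAt_pull (n := 2) ((h.fC' hu).of_le two_le) (by norm_num)
      (hψ _ (h.mem hu).1)).congr_of_eventuallyEq (hbV u hu)
  · exact contDiffAt_const.congr_of_eventuallyEq (hb0 u fun h' => hu (hKW h'))

theorem LEq.sing_on (hX : Clo (n + 2) X) (ho : Ori (n + 2) X o) (hD : Dv n X Y oY g)
    (h : LEq n X o Y oY g z x) {y : E'} (hy : y ∈ Y) (hyx : g y = x) :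
    ∃ U ∈ 𝓝 x, ∀ ψ : E → Ext E, (∀ q ∈ X, ContDiffAt ℝ 1 ψ q) → tsupport ψ ⊆ U →
      Int (n + 2) X o (fun q => ang z q * d ψ q) ∧
        J (n + 2) X o (fun q => ang z q * d ψ q) = J n Y oY (pull g ψ) := by
  obtain ⟨f, O, ℓ, fY, w₀, r, hr, hl, hxO, hcY, hfw, hz, hfg, hY⟩ := h.adapt hX hD hy hyx
  set W := Metric.ball ((0 : ℂ), w₀) r with hW
  set V := Metric.ball w₀ r with hV
  have hb : ∀ w, ((0 : ℂ), w) ∈ W ↔ w ∈ V := fun w => by
    rw [hW, ← ball_prod_same]; exact ⟨fun h => h.2, fun h => ⟨Metric.mem_ball_self hr, h⟩⟩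
  have hw₀ : w₀ ∈ V := Metric.mem_ball_self hr
  have hfd : ∀ p ∈ W, DifferentiableAt ℝ f p := fun p hp => (hl.fC' hp).differentiableAt (by simp)
  have hl' := hl.comp_equiv (eP n)
  have hc := hl'.chart
  have hpe : ∀ (a : E → Ext E) (u : Eu (n + 2)), eP n u ∈ W →
      top (n + 2) (pull (fun u => f (eP n u)) a u) = Tp n (pull f a (eP n u)) := by
    intro a u hu
    have := pull_comp (om := a) (eP n).differentiableAt (hfd _ hu)
    rw [show (fun u => f (eP n u)) = f ∘ eP n from rfl, ← this, pull, (eP n).fderiv]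
    rfl
  have hzf : ∀ p ∈ W, (fun p => z (f p)) =ᶠ[𝓝 p] Prod.fst := fun p hp => by
    filter_upwards [hl.oW.mem_nhds hp] with q hq using (hz q hq).1
  have hinr : ∀ w ∈ V, ∀ a : E → Ext E,
      pb (LinearMap.inr ℝ ℂ (Eu n)) (pull f a (0, w)) = pull fY (pull g a) w := by
    intro w hw a
    have a1 : (fun w => f (0, w)) =ᶠ[𝓝 w] g ∘ fY := by
      filter_upwards [hcY.isOpen.mem_nhds hw] with v hv using hfg v hv
    rw [pull_comp (hcY.differentiableAt hw) (hD.smap.diff (hcY.mem hw)), ← pull_congr a1]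
    have a2 := pull_comp (f := ContinuousLinearMap.inr ℝ ℂ (Eu n)) (g := f) (om := a) (x := w)
      (ContinuousLinearMap.inr ℝ ℂ (Eu n)).differentiableAt (hfd _ ((hb w).2 hw))
    rw [pull, (ContinuousLinearMap.inr ℝ ℂ (Eu n)).fderiv] at a2
    exact a2
  -- the signs
  obtain ⟨ε, hε⟩ := hc.exists_sign ho
    (((convex_ball _ r).linear_preimage (eP n).toLinearEquiv.toLinearMap).isPreconnected)
  obtain ⟨ε', hε'⟩ := hcY.exists_sign hD.ori (convex_ball _ r).isPreconnected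
  have hεε : ε = ε' := by
    have hp₀ : ((0 : ℂ), w₀) ∈ W := (hb _).2 hw₀
    have hfx : f (0, w₀) = x := by rw [hfg _ hw₀, hfw, hyx]
    have a0 : eP n ((eP n).symm (0, w₀)) ∈ W := by rw [(eP n).apply_symm_apply]; exact hp₀
    rw [← hε _ a0, ← hε' _ hw₀, hpe _ _ a0, (eP n).apply_symm_apply]
    obtain ⟨v₁, v₂, w, h1, h2, h3, h4, h5, h6⟩ := h.pos y hy hyx
    rw [← hfx, ← hl.range_eq_Tan hp₀] at h1 h2
    obtain ⟨⟨s₁, a⟩, h1⟩ := h1
    obtain ⟨⟨s₂, b⟩, h2⟩ := h2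
    have hzd : ∀ p, fderiv ℝ z x (fderiv ℝ f (0, w₀) p) = p.1 := fun p => by
      have a1 : HasFDerivAt z (fderiv ℝ z x) (f (0, w₀)) := by
        have := ((hz _ hp₀).2.differentiableAt (by simp)).hasFDerivAt
        rwa [hfx] at this ⊢
      have a2 := (a1.comp _ (hfd _ hp₀).hasFDerivAt).unique
        (hasFDerivAt_fst.congr_of_eventuallyEq (hzf _ hp₀))
      exact congrArg (fun L => L p) a2
    have e1 : s₁ = 1 := by rw [← h4, ← h1]; exact (hzd (s₁, a)).symm
    have e2 : s₂ = Complex.I := by rw [← h5, ← h2]; exact (hzd (s₂, b)).symm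
    rw [← hfw, ← range_fderiv_eq_Tan hcY hw₀] at h3
    choose u hu using h3
    have hgu : ∀ j, fderiv ℝ g y (w j) = fderiv ℝ f (0, w₀) (0, u j) := fun j => by
      have a1 : HasFDerivAt g (fderiv ℝ g y) (fY w₀) := by
        rw [hfw]; exact (hD.smap.diff hy).hasFDerivAt
      have a2 := a1.comp w₀ (hcY.differentiableAt hw₀).hasFDerivAt
      have a3 : HasFDerivAt (g ∘ fY)
          ((fderiv ℝ f (0, w₀)).comp (ContinuousLinearMap.inr ℝ ℂ (Eu n))) w₀ := by
        refine ((hfd _ hp₀).hasFDerivAt.comp w₀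
          (ContinuousLinearMap.inr ℝ ℂ (Eu n)).hasFDerivAt).congr_of_eventuallyEq ?_
        filter_upwards [hcY.isOpen.mem_nhds hw₀] with v hv using (hfg v hv).symm
      rw [← hu j]
      exact congrArg (fun L => L (u j)) (a2.unique a3)
    refine sign_eq_of_pos (Tp_pos (a := a) (b := b) (u := u) ?_)
    rw [pull, pull, evA_pb, evA_pb, hfx, hfw]
    convert h6 using 3
    · funext i
      refine Fin.cases ?_ (fun i => Fin.cases ?_ (fun j => ?_) i) i
      · rw [← e1]; exact h1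
      · rw [← e2]; exact h2
      · exact (hgu j).symm
    · exact funext hu
  refine ⟨O, hl.oO.mem_nhds hxO, fun ψ hψ hs => ?_⟩
  obtain ⟨b, hbC, hbs, hbW, hb0⟩ := Loc.ext_zero hX.compact hl hψ hs
  have hdc : Continuous (d b) := (wd _).continuous.comp (hbC.continuous_fderiv one_ne_zero)
  have hin : ∀ u ∈ eP n ⁻¹' W, top (n + 2) (pull (fun u => f (eP n u))
      (fun q => ang z q * d ψ q) u) * Real.sign (top (n + 2) (pull (fun u => f (eP n u)) o u))
      = Tp n (ang Prod.fst (eP n u) * d b (eP n u)) * ε := by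
    intro u hu
    rw [hε u hu, hpe _ _ hu, pull_mul, ang_comp (hfd _ hu) ((hz _ hu).2.differentiableAt (by simp)),
      ang_congr (hzf _ hu), d_congr (hbW _ hu), d_pull ((hl.fC' hu).of_le two_le)
        ((hψ _ (hl.mem hu).1).differentiableAt (by simp))]
  have hout : ∀ q ∈ X, q ∉ (fun u => f (eP n u)) '' (eP n ⁻¹' W) → ang z q * d ψ q = 0 := by
    intro q hq hq'
    rw [hl'.img] at hq'
    rw [d_of_notMem fun h' => hq' ⟨hq, hs h'⟩, mul_zero]
  have hmp := measurePreserving_eP n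
  have hme : MeasurableEmbedding (eP n) := (eP n).toHomeomorph.measurableEmbedding
  constructor
  · refine Int.of_chart hX hc hout ?_
    rw [integrableOn_congr_fun hin hc.isOpen.measurableSet]
    exact ((hmp.integrable_comp_emb hme).2
      ((flat_int volume (Tp n) hdc (hasCompactSupport_d hbs)).mul_const ε)).integrableOn
  · rw [J_eq_chart hX hc fun q hq hq' => by rw [hout q hq hq']; simp,
      setIntegral_congr_fun hc.isOpen.measurableSet hin,
      setIntegral_eq_integral_of_forall_compl_eq_zero fun u hu => by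
        rw [d_congr (hb0 _ hu), d_const, mul_zero, map_zero, zero_mul],
      hmp.integral_comp hme (fun p => Tp n (ang Prod.fst p * d b p) * ε), integral_mul_const,
      flat_pl volume (Tp n) hbC hbs, J_eq_chart hD.clo hcY fun q hq hq' => by
        rw [pull, image_eq_zero_of_notMem_tsupport fun h' => hq' (hY q hq (hs h')), map_zero]; simp,
      ← integral_mul_const, ← setIntegral_eq_integral_of_forall_compl_eq_zero (s := V)
        fun w hw => by
          rw [(hb0 _ fun h' => hw ((hb w).1 h')).eq_of_nhds, mul_zero, map_zero, zero_mul]]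
    refine setIntegral_congr_fun hcY.isOpen.measurableSet fun w hw => ?_
    beta_reduce
    rw [hε' w hw, hεε, Tp_apply, top_eP, (hbW _ ((hb w).2 hw)).eq_of_nhds, hinr w hw]

/-- **local Poincaré–Lelong formula** -/
theorem LEq.sing (hX : Clo (n + 2) X) (ho : Ori (n + 2) X o) (hD : Dv n X Y oY g)
    (h : LEq n X o Y oY g z x) :
    ∃ U ∈ 𝓝 x, ∀ ψ : E → Ext E, (∀ q ∈ X, ContDiffAt ℝ 1 ψ q) → tsupport ψ ⊆ U →
      Int (n + 2) X o (fun q => ang z q * d ψ q) ∧
        J (n + 2) X o (fun q => ang z q * d ψ q) = J n Y oY (pull g ψ) := by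
  by_cases hxY : x ∈ g '' Y
  · obtain ⟨y, hy, hyx⟩ := hxY
    exact h.sing_on hX ho hD hy hyx
  obtain ⟨N, hNo, hxN, hN⟩ := mem_nhdsWithin.1 h.near
  refine ⟨N ∩ (g '' Y)ᶜ, (hNo.inter hD.isClosed.isOpen_compl).mem_nhds ⟨hxN, hxY⟩,
    fun ψ hψ hs => ?_⟩
  have hz : ∀ q ∈ X, q ∈ tsupport ψ → ContDiffAt ℝ ∞ z q ∧ z q ≠ 0 := fun q hq hq' =>
    ⟨(hN ⟨(hs hq').1, hq⟩).1, fun h0 => (hs hq').2 ((hN ⟨(hs hq').1, hq⟩).2.1 h0)⟩
  obtain ⟨h1, -, h2⟩ := J_mul_d (a := ang z) hX ho hψ fun q hq hq' =>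
    ⟨contDiffAt_ang (n := 2) ((hz q hq hq').1.of_le two_le) (by norm_num) (hz q hq hq').2,
      inv_ang z q⟩
  refine ⟨h1, ?_⟩
  rw [h2, J_congr' (om' := fun _ => 0) hX, J_zero, J_congr' (om' := fun _ => 0) hD.clo, J_zero]
  · intro y hy
    rw [pull, image_eq_zero_of_notMem_tsupport fun h' => (hs h').2 ⟨y, hy, rfl⟩, map_zero]
  · intro q hq
    by_cases hq' : q ∈ tsupport ψ
    · rw [d_ang ((hz q hq hq').1.of_le two_le) (hz q hq hq').2, zero_mul]
    · rw [image_eq_zero_of_notMem_tsupport hq', mul_zero]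

end Crest.Agent.X262.PL
end
end

-- ▼ part X262/PL/Main
section

/-!
# Row 262, PL (helper92), part Main: the Poincaré–Lelong formula

* `Sg X θ c s x` : near `x`, `θ = ang s + a` off the zeros of `s`, `a` smooth and odd, `da = -c`;
  `Sg.pull`, `Sg.unit`;
* `PLd n X o Y oY g m θ c` : locally `θ = ∑ mᵢ ang zᵢ + a`, `zᵢ` positive equations of `gᵢ (Yᵢ)`;
  `PLd.of_sg`;
* `PLd.current` : `∫ c φ + ∫ θ dφ = ∑ mᵢ ∫_{Yᵢ} φ`; `PLd.closed`, `PLd.thom` and complex versions.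
-/

set_option autoImplicit false
set_option linter.unusedSectionVars false

open Set Filter Topology Module MeasureTheory
open scoped ContDiff
open Crest.Agent.R208.F Crest.Agent.R208.FI Crest.Agent.R208.CW
open Crest.Agent.R208.T (Sm Cl Eqv Coh pb_pull_eq_zero)

noncomputable section

namespace Crest.Agent.X262.PL

variable {E F : Type*} [NormedAddCommGroup E] [NormedSpace ℝ E] [FiniteDimensional ℝ E]
  [NormedAddCommGroup F] [NormedSpace ℝ F] [FiniteDimensional ℝ F]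
  {n : ℕ} {X : Set E} {o θ c φ : E → Ext E} {x : E}

/-! ### local lemmas on restrictions -/

theorem fderiv_congr_tan {G : Type*} [NormedAddCommGroup G] [NormedSpace ℝ G] {f f' : E → G}
    (hf : DifferentiableAt ℝ f x) (hf' : DifferentiableAt ℝ f' x) (h : f =ᶠ[𝓝[X] x] f') {v : E}
    (hv : v ∈ Tan X x) : fderiv ℝ f x v = fderiv ℝ f' x v := by
  refine Submodule.span_induction (p := fun w _ => fderiv ℝ f x w = fderiv ℝ f' x w) ?_ ?_ ?_ ?_ hv
  · rintro w ⟨γ, rfl, hγ, hS⟩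
    have h1 := hf.hasFDerivAt.comp_hasDerivAt 0 hγ
    have h2 := hf'.hasFDerivAt.comp_hasDerivAt 0 hγ
    have h3 : (f ∘ γ) =ᶠ[𝓝 0] (f' ∘ γ) :=
      (tendsto_nhdsWithin_iff.2 ⟨hγ.continuousAt, hS⟩).eventually h
    exact (h1.congr_of_eventuallyEq h3.symm).unique h2
  · simp
  · intro a b _ _ ha hb; simp only [map_add, ha, hb]
  · intro r a _ ha; simp only [map_smul, ha]

theorem res_pull_congr {f f' : E → F} (w : F → Ext F) (hx : x ∈ X) (hf : DifferentiableAt ℝ f x)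
    (hf' : DifferentiableAt ℝ f' x) (h : f =ᶠ[𝓝[X] x] f') :
    res X x (pull f w x) = res X x (pull f' w x) := by
  rw [pull, pull, pb_comp, pb_comp, h.self_of_nhdsWithin hx]
  congr 2
  exact LinearMap.ext fun v => fderiv_congr_tan hf hf' h v.2

theorem res_pull {Y : Set F} {f : E → F} (hf : DifferentiableAt ℝ f x) (hXY : MapsTo f X Y)
    {a b : F → Ext F} (h : res Y (f x) (a (f x)) = res Y (f x) (b (f x))) :
    res X x (pull f a x) = res X x (pull f b x) := by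
  rw [← sub_eq_zero, ← map_sub] at h
  have := pb_pull_eq_zero hf hXY h
  rwa [map_sub, map_sub, sub_eq_zero] at this

theorem res_d_zero {m : ℕ} (hX : Sub m X) (hx : x ∈ X) {a : E → Ext E}
    (ha : DifferentiableAt ℝ a x) (h : ∀ᶠ q in 𝓝[X] x, res X q (a q) = 0) :
    res X x (d a x) = 0 := by
  obtain ⟨f, V, hf, u, hu, rfl⟩ := hX x hx
  rw [R208.T.res_chart hf hu]
  have h2 : ContDiffAt ℝ 2 f u := (hf.contDiffAt hu).of_le two_le
  change pull f (d a) u = 0
  rw [← d_pull h2 ha]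
  have h3 : Tendsto f (𝓝 u) (𝓝[X] (f u)) := tendsto_nhdsWithin_iff.2 ⟨h2.continuousAt, by
    filter_upwards [hf.isOpen.mem_nhds hu] with w hw using hf.mem hw⟩
  have h4 : pull f a =ᶠ[𝓝 u] fun _ => 0 := by
    filter_upwards [h3.eventually h, hf.isOpen.mem_nhds hu] with w hw hwV
    exact (R208.T.res_chart hf hwV _).1 hw
  rw [d_congr h4, d_const]

theorem inv_pull (f : E → F) {w : F → Ext F} (h : inv (w (f x)) = - w (f x)) :
    inv (pull f w x) = - pull f w x := by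
  rw [pull, ← pb_inv, h, map_neg]

/-! ### singular connection forms -/

/-- near `x` the form `θ` is `ang s + a` off the zeros of `s`, with `a` smooth, odd, `da = - c` -/
def Sg (X : Set E) (θ c : E → Ext E) (s : E → ℂ) (x : E) : Prop :=
  ∃ a : E → Ext E, ∀ᶠ q in 𝓝[X] x, ContDiffAt ℝ ∞ s q ∧ ContDiffAt ℝ ∞ a q ∧ inv (a q) = - a q ∧
    res X q (d a q + c q) = 0 ∧ (s q ≠ 0 → res X q (θ q) = res X q (ang s q + a q))

theorem SMap.tendsto {P : Set F} {u : F → E} (hu : SMap P X u) {p : F} (hp : p ∈ P) :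
    Tendsto u (𝓝[P] p) (𝓝[X] (u p)) :=
  (hu.smooth p hp).continuousAt.continuousWithinAt.tendsto_nhdsWithin hu.maps

theorem Sg.pull {s : E → ℂ} {P : Set F} {u : F → E} (hu : SMap P X u) {p : F} (hp : p ∈ P)
    (h : Sg X θ c s (u p)) : Sg P (pull u θ) (pull u c) (fun q => s (u q)) p := by
  obtain ⟨a, h⟩ := h
  refine ⟨R208.F.pull u a, ?_⟩
  filter_upwards [(SMap.tendsto hu hp).eventually h, self_mem_nhdsWithin] with q hq hqP
  obtain ⟨h1, h2, h3, h4, h5⟩ := hq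
  refine ⟨h1.comp q (hu.smooth q hqP), contDiffAt_pull (hu.smooth q hqP) (by simp) h2,
    inv_pull u h3, ?_, fun h0 => ?_⟩
  · rw [d_pull (hu.c2 hqP) (h2.differentiableAt (by simp)), ← pull_add]
    exact pb_pull_eq_zero (hu.diff hqP) hu.maps h4
  · rw [← ang_comp (hu.diff hqP) (h1.differentiableAt (by simp)), ← pull_add]
    exact res_pull (b := fun y => ang s y + a y) (hu.diff hqP) hu.maps (h5 h0)

/-- change of the equation by a unit -/
theorem Sg.unit {s s' ε : E → ℂ} (h : Sg X θ c s x)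
    (hs : ∀ᶠ q in 𝓝[X] x, ContDiffAt ℝ ∞ s' q ∧ ContDiffAt ℝ ∞ ε q ∧ ε q ≠ 0 ∧ s q = ε q * s' q) :
    Sg X θ c s' x := by
  obtain ⟨a, h⟩ := h
  refine ⟨fun q => ang ε q + a q, ?_⟩
  filter_upwards [h, hs, eventually_eventually_nhdsWithin.2 hs, self_mem_nhdsWithin]
    with q hq hq' hq2 hqX
  obtain ⟨h1, h2, h3, h4, h5⟩ := hq
  obtain ⟨k1, k2, k3, k4⟩ := hq'
  have k5 : ContDiffAt ℝ ∞ (ang ε) q := contDiffAt_ang k2 (by simp) k3
  refine ⟨k1, k5.add h2, by rw [map_add, inv_ang, h3, neg_add], ?_, fun h0 => ?_⟩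
  · rw [d_add (k5.differentiableAt (by simp)) (h2.differentiableAt (by simp)),
      d_ang (k2.of_le two_le) k3, zero_add, h4]
  · have k6 := k1.differentiableAt (by simp)
    have k7 := k2.differentiableAt (by simp)
    rw [h5 (by rw [k4]; exact mul_ne_zero k3 h0), ← add_assoc, add_comm (ang s' q),
      ← ang_mul k7 k6 k3 h0, map_add, map_add]
    congr 1
    exact res_pull_congr _ hqX (h1.differentiableAt (by simp)) (k7.fun_mul k6)
      (hq2.mono fun y hy => hy.2.2.2)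

/-- off the zeros, `dθ = -c` -/
theorem Sg.d_eq {m : ℕ} (hX : Sub m X) (hx : x ∈ X) {s : E → ℂ} (h : Sg X θ c s x) (h0 : s x ≠ 0)
    (hθ : DifferentiableAt ℝ θ x) : res X x (c x + d θ x) = 0 := by
  obtain ⟨a, h⟩ := h
  obtain ⟨h1, h2, -, h4, -⟩ := h.self_of_nhdsWithin hx
  have k1 : DifferentiableAt ℝ (ang s) x :=
    (contDiffAt_ang (m := 1) (n := 2) (h1.of_le two_le) (by norm_num) h0).differentiableAt (by simp)
  have k2 : DifferentiableAt ℝ a x := h2.differentiableAt (by simp)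
  have k3 := res_d_zero hX hx (a := fun q => θ q - (ang s q + a q)) (hθ.fun_sub (k1.fun_add k2)) (by
    filter_upwards [h, nhdsWithin_le_nhds (h1.continuousAt.eventually_ne h0)] with q hq hq0
    rw [map_sub, hq.2.2.2.2 hq0, sub_self])
  rw [d_sub hθ (k1.fun_add k2), d_add k1 k2, d_ang (h1.of_le two_le) h0, zero_add, map_sub,
    sub_eq_zero] at k3
  rw [map_add, k3, add_comm, ← map_add, h4]

/-! ### the formula -/

variable {ι : Type*} [Fintype ι] {E' : ι → Type*} [∀ i, NormedAddCommGroup (E' i)]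
  [∀ i, NormedSpace ℝ (E' i)] [∀ i, FiniteDimensional ℝ (E' i)]
  {Y : ∀ i, Set (E' i)} {oY : ∀ i, E' i → Ext (E' i)} {g : ∀ i, E' i → E} {m : ι → ℝ}

/-- locally `θ = ∑ mᵢ ang zᵢ + a` off the divisors, `a` of class `C¹`, odd, `da = -c` -/
def PLd (n : ℕ) (X : Set E) (o : E → Ext E) (Y : ∀ i, Set (E' i)) (oY : ∀ i, E' i → Ext (E' i))
    (g : ∀ i, E' i → E) (m : ι → ℝ) (θ c : E → Ext E) : Prop :=
  ∀ x ∈ X, ∃ (z : ι → E → ℂ) (a : E → Ext E), (∀ i, LEq n X o (Y i) (oY i) (g i) (z i) x) ∧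
    ∀ᶠ q in 𝓝[X] x, ContDiffAt ℝ 1 a q ∧ inv (a q) = - a q ∧ res X q (d a q + c q) = 0 ∧
      ((∀ i, q ∉ g i '' Y i) → res X q (θ q) = res X q (∑ i, m i • ang (z i) q + a q))

theorem PLd.of_sg {k : ι → ℕ} (h : ∀ x ∈ X, ∃ z : ι → E → ℂ,
      (∀ i, LEq n X o (Y i) (oY i) (g i) (z i) x) ∧ Sg X θ c (fun q => ∏ i, z i q ^ k i) x) :
    PLd n X o Y oY g (fun i => k i) θ c := by
  intro x hx
  obtain ⟨z, hz, a, h⟩ := h x hx
  refine ⟨z, a, hz, ?_⟩
  filter_upwards [h, eventually_all.2 fun i => (hz i).near] with q hq hq'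
  refine ⟨hq.2.1.of_le (by exact_mod_cast le_top), hq.2.2.1, hq.2.2.2.1, fun h0 => ?_⟩
  have h1 : ∀ i, z i q ≠ 0 := fun i h1 => h0 i ((hq' i).2.1 h1)
  have h2 : ∀ i, DifferentiableAt ℝ (z i) q := fun i => (hq' i).1.differentiableAt (by simp)
  rw [hq.2.2.2.2 (Finset.prod_ne_zero_iff.2 fun i _ => pow_ne_zero _ (h1 i)),
    ang_prod Finset.univ (f := fun i q => z i q ^ k i) (fun i _ => (h2 i).fun_pow _)
      (fun i _ => pow_ne_zero _ (h1 i))]
  simp only [ang_pow (h2 _) (h1 _)]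

theorem Dv.cont_pull {E' : Type*} [NormedAddCommGroup E'] [NormedSpace ℝ E']
    [FiniteDimensional ℝ E'] {Y : Set E'} {oY : E' → Ext E'} {g : E' → E} (h : Dv n X Y oY g)
    (hφ : ∀ x ∈ X, ContDiffAt ℝ 1 φ x) : ContinuousOn (pull g φ) Y := fun y hy =>
  (contDiffAt_pull (n := 2) (h.smap.c2 hy) (by norm_num)
    (hφ _ (h.smap.maps hy))).continuousAt.continuousWithinAt

theorem continuousOn_mul {a b : E → Ext E} (ha : ContinuousOn a X) (hb : ContinuousOn b X) :
    ContinuousOn (fun x => a x * b x) X :=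
  (mulL E).continuous₂.comp_continuousOn (ha.prodMk hb)

/-- **Poincaré–Lelong formula** (currents) -/
theorem PLd.current (hX : Clo (n + 2) X) (ho : Ori (n + 2) X o)
    (hD : ∀ i, Dv n X (Y i) (oY i) (g i)) (h : PLd n X o Y oY g m θ c) (hc : ContinuousOn c X)
    (hφ : ∀ x ∈ X, ContDiffAt ℝ 1 φ x) :
    Int (n + 2) X o (fun q => θ q * d φ q) ∧
      J (n + 2) X o (fun q => c q * φ q) + J (n + 2) X o (fun q => θ q * d φ q)
        = ∑ i, m i * J n (Y i) (oY i) (pull (g i) φ) := by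
  have hZ : Null (n + 2) (⋃ i, g i '' Y i) := Null.iUnion fun i => (hD i).null
  refine localise (k := 1) (P := fun φ => Int (n + 2) X o (fun q => θ q * d φ q) ∧
      J (n + 2) X o (fun q => c q * φ q) + J (n + 2) X o (fun q => θ q * d φ q)
        = ∑ i, m i * J n (Y i) (oY i) (pull (g i) φ)) hX.compact ?_ ?_ ?_ ?_ hφ
  · have h0 : ∀ i, pull (g i) (fun _ => (0 : Ext E)) = fun _ => 0 := fun i =>
      funext fun y => map_zero _
    simp only [d_const, mul_zero, h0, J_zero, add_zero, Finset.sum_const_zero, and_true]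
    exact Int.zero
  · rintro a b ha hb ⟨h1, h2⟩ ⟨h3, h4⟩
    have e1 : ∀ q ∈ X, θ q * d (fun x => a x + b x) q = θ q * d a q + θ q * d b q := fun q hq => by
      rw [d_add ((ha q hq).differentiableAt (by simp)) ((hb q hq).differentiableAt (by simp)),
        mul_add]
    refine ⟨Int.congr' hX (fun q hq => by rw [e1 q hq]) (h1.add h3), ?_⟩
    have e2 : ∀ i, pull (g i) (fun x => a x + b x) = fun y => pull (g i) a y + pull (g i) b y :=
      fun i => funext (pull_add _ _ _)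
    simp only [mul_add, e2]
    rw [J_congr' hX e1, J_add' h1 h3, J_add hX ho
      (continuousOn_mul hc (continuousOn_of_contDiffAt ha))
      (continuousOn_mul hc (continuousOn_of_contDiffAt hb)), add_add_add_comm, h2, h4,
      ← Finset.sum_add_distrib]
    refine Finset.sum_congr rfl fun i _ => ?_
    rw [J_add (hD i).clo (hD i).ori ((hD i).cont_pull ha) ((hD i).cont_pull hb), mul_add]
  · rintro a b hab ⟨h1, h2⟩
    have e1 : ∀ q ∈ X, θ q * d b q = θ q * d a q := fun q hq => by rw [d_congr (hab q hq)]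
    refine ⟨Int.congr' hX (fun q hq => by rw [e1 q hq]) h1, ?_⟩
    rw [J_congr' hX e1, J_congr' (om' := fun q => c q * a q) hX
      fun q hq => by rw [(hab q hq).eq_of_nhds], h2]
    refine Finset.sum_congr rfl fun i _ => ?_
    rw [J_congr' (hD i).clo fun y hy => ?_]
    rw [pull, pull, (hab _ ((hD i).smap.maps hy)).eq_of_nhds]
  · intro x hx
    obtain ⟨z, a, hz, hn⟩ := h x hx
    obtain ⟨N, hNo, hxN, hN⟩ := mem_nhdsWithin.1 hn
    choose U hU hS using fun i => (hz i).sing hX ho (hD i)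
    refine ⟨N ∩ ⋂ i, U i, inter_mem (hNo.mem_nhds hxN) (iInter_mem.2 hU), fun ψ hψ hs => ?_⟩
    have hS' := fun i => hS i ψ hψ (hs.trans (inter_subset_right.trans (iInter_subset _ i)))
    obtain ⟨a1, a2, a3⟩ := J_mul_d (a := a) hX ho hψ fun q hq hq' =>
      ⟨(hN ⟨(hs hq').1, hq⟩).1, (hN ⟨(hs hq').1, hq⟩).2.1⟩
    have e1 : ∀ q ∈ X, q ∉ ⋃ i, g i '' Y i → res X q (θ q * d ψ q)
        = res X q (∑ i, m i • (ang (z i) q * d ψ q) + a q * d ψ q) := by
      intro q hq hqZ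
      by_cases hq' : q ∈ tsupport ψ
      · rw [map_mul, (hN ⟨(hs hq').1, hq⟩).2.2.2 fun i hi => hqZ (mem_iUnion.2 ⟨i, hi⟩), ← map_mul,
          add_mul, Finset.sum_mul]
        simp only [smul_mul_assoc]
      · simp [d_of_notMem hq']
    have i1 : Int (n + 2) X o fun q => ∑ i, m i • (ang (z i) q * d ψ q) :=
      Int.sum _ fun i _ => (hS' i).1.smul _
    refine ⟨Int.congr hX hZ e1 (i1.add a1), ?_⟩
    rw [J_congr_ae hX hZ e1, J_add' i1 a1, J_sum' _ fun i _ => (hS' i).1.smul _, a3, add_left_comm,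
      ← J_add' (Int.of_cont hX ho (continuousOn_mul hc (continuousOn_of_contDiffAt hψ))) a2,
      J_congr_res (b := fun _ => 0) hX, J_zero, add_zero]
    · exact Finset.sum_congr rfl fun i _ => by rw [J_smul, (hS' i).2]
    · intro q hq
      by_cases hq' : q ∈ tsupport ψ
      · rw [← add_mul, map_mul, add_comm, (hN ⟨(hs hq').1, hq⟩).2.2.1, zero_mul, map_zero]
      · simp [image_eq_zero_of_notMem_tsupport hq']

/-- closed test forms -/
theorem PLd.closed (hX : Clo (n + 2) X) (ho : Ori (n + 2) X o)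
    (hD : ∀ i, Dv n X (Y i) (oY i) (g i)) (h : PLd n X o Y oY g m θ c) (hc : ContinuousOn c X)
    (hφ : ∀ x ∈ X, ContDiffAt ℝ 1 φ x) (hcl : ∀ x ∈ X, res X x (d φ x) = 0) :
    J (n + 2) X o (fun q => c q * φ q) = ∑ i, m i * J n (Y i) (oY i) (pull (g i) φ) := by
  rw [← (h.current hX ho hD hc hφ).2, J_congr_res (a := fun q => θ q * d φ q) (b := fun _ => 0) hX
    fun q hq => by rw [map_mul, hcl q hq, mul_zero, map_zero], J_zero, add_zero]

/-- the Thom form `c + d β`, `β = ρ θ`, against forms which are closed where `ρ ≠ 1` -/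
theorem PLd.thom (hX : Clo (n + 2) X) (ho : Ori (n + 2) X o)
    (hD : ∀ i, Dv n X (Y i) (oY i) (g i)) (h : PLd n X o Y oY g m θ c) (hc : ContinuousOn c X)
    {β : E → Ext E} (hβ : ∀ x ∈ X, ContDiffAt ℝ 1 β x ∧ inv (β x) = - β x)
    (hφ : ∀ x ∈ X, ContDiffAt ℝ 1 φ x)
    (hcl : ∀ x ∈ X, res X x (d φ x) = 0 ∨ res X x (β x) = res X x (θ x)) :
    J (n + 2) X o (fun q => (c q + d β q) * φ q)
      = ∑ i, m i * J n (Y i) (oY i) (pull (g i) φ) := by
  obtain ⟨-, a2, a3⟩ := J_mul_d (a := β) hX ho hφ fun q hq _ => hβ q hq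
  simp only [add_mul]
  rw [J_add' (Int.of_cont hX ho (continuousOn_mul hc (continuousOn_of_contDiffAt hφ))) a2, ← a3,
    ← (h.current hX ho hD hc hφ).2]
  congr 1
  refine J_congr_res hX fun q hq => ?_
  rcases hcl q hq with h1 | h1
  · rw [map_mul, map_mul, h1, mul_zero, mul_zero]
  · rw [map_mul, map_mul, h1]

/-! ### complex test forms -/

theorem JC_ofR_mul {k : ℕ} (τ : E → Ext E) (Φ : E → CF E) :
    JC k X o (fun q => Cx.ofR (τ q) * Φ q)
      = ⟨J k X o fun q => τ q * (Φ q).re, J k X o fun q => τ q * (Φ q).im⟩ := by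
  simp [JC]

theorem sum_JC (Φ : E → CF E) : ∑ i, (m i : ℂ) * JC n (Y i) (oY i) (pullC (g i) Φ)
    = ⟨∑ i, m i * J n (Y i) (oY i) (pull (g i) fun q => (Φ q).re),
      ∑ i, m i * J n (Y i) (oY i) (pull (g i) fun q => (Φ q).im)⟩ := by
  refine Complex.ext ?_ ?_
  · rw [Complex.re_sum]
    exact Finset.sum_congr rfl fun i _ => Complex.re_ofReal_mul _ _
  · rw [Complex.im_sum]
    exact Finset.sum_congr rfl fun i _ => Complex.im_ofReal_mul _ _

theorem PLd.thomC (hX : Clo (n + 2) X) (ho : Ori (n + 2) X o)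
    (hD : ∀ i, Dv n X (Y i) (oY i) (g i)) (h : PLd n X o Y oY g m θ c) (hc : ContinuousOn c X)
    {β : E → Ext E} (hβ : ∀ x ∈ X, ContDiffAt ℝ 1 β x ∧ inv (β x) = - β x) {Φ : E → CF E}
    (hΦ : ∀ x ∈ X, CD 1 Φ x)
    (hcl : ∀ x ∈ X, rs X x (dC Φ x) = 0 ∨ res X x (β x) = res X x (θ x)) :
    JC (n + 2) X o (fun q => Cx.ofR (c q + d β q) * Φ q)
      = ∑ i, (m i : ℂ) * JC n (Y i) (oY i) (pullC (g i) Φ) := by
  rw [JC_ofR_mul, sum_JC,
    h.thom hX ho hD hc hβ (fun x hx => (hΦ x hx).re)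
      fun x hx => (hcl x hx).imp_left (congrArg Cx.re),
    h.thom hX ho hD hc hβ (fun x hx => (hΦ x hx).im)
      fun x hx => (hcl x hx).imp_left (congrArg Cx.im)]

/-- **PL0**: `∫ c Φ = ∑ mᵢ ∫_{Yᵢ} Φ` for closed `Φ` -/
theorem PLd.closedC (hX : Clo (n + 2) X) (ho : Ori (n + 2) X o)
    (hD : ∀ i, Dv n X (Y i) (oY i) (g i)) (h : PLd n X o Y oY g m θ c) (hc : ContinuousOn c X)
    {Φ : E → CF E} (hΦ : Φ ∈ Z X) :
    JC (n + 2) X o (fun q => Cx.ofR (c q) * Φ q)
      = ∑ i, (m i : ℂ) * JC n (Y i) (oY i) (pullC (g i) Φ) := by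
  rw [JC_ofR_mul, sum_JC,
    h.closed hX ho hD hc (fun x hx => (hΦ.2.1.cd1 hx).re)
      fun x hx => congrArg Cx.re (hΦ.2.2 x hx),
    h.closed hX ho hD hc (fun x hx => (hΦ.2.1.cd1 hx).im)
      fun x hx => congrArg Cx.im (hΦ.2.2 x hx)]

end Crest.Agent.X262.PL
end
end

-- ▼ part X262/PL/Gys
section

/-!
# Row 262, PL (helper92), part Gys: Thom form and Gysin map of a cooriented divisor

* `Tube Y g`  : retraction of a neighbourhood of `g (Y)` onto `Y` and cut-off functions;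
* `Th n X o Y oY g θ c` : `g : Y → X` embedded divisor, `θ` singular connection form, `c` curvature;
* `Th.gys h a : H X` for `a : H Y`, with
  `Th.gys_adj` (adjoint of `g^*`), `Th.gys_self` (`g^* g_* a = g^* c · a`),
  `Th.gys_bc` (base change along `u : P → X`, integrated against closed classes), `Th.pl0`.
-/

set_option autoImplicit false
set_option linter.unusedSectionVars false

open Set Filter Topology Module MeasureTheory
open scoped ContDiff Manifold
open Crest.Agent.R208.F Crest.Agent.R208.FI Crest.Agent.R208.CW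
open Crest.Agent.R208.T (Sm Cl Eqv Coh pb_pull_eq_zero)

noncomputable section

namespace Crest.Agent.X262.PL

variable {E E' F : Type*} [NormedAddCommGroup E] [NormedSpace ℝ E] [FiniteDimensional ℝ E]
  [NormedAddCommGroup E'] [NormedSpace ℝ E'] [FiniteDimensional ℝ E']
  [NormedAddCommGroup F] [NormedSpace ℝ F] [FiniteDimensional ℝ F]
  {n : ℕ} {X : Set E} {o θ c : E → Ext E} {Y : Set E'} {oY : E' → Ext E'} {g : E' → E}

theorem inv_d_odd {β : E → Ext E} (h : ∀ q, inv (β q) = - β q) (x : E) : inv (d β x) = d β x := by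
  by_cases hd : DifferentiableAt ℝ β x
  · have h1 := d_inv hd
    simp only [h] at h1
    rw [d_neg, neg_inj] at h1
    exact h1.symm
  · rw [d, fderiv_zero_of_not_differentiableAt hd, map_zero, map_zero]

theorem exists_cutoff {K U : Set E} (hK : IsCompact K) (hU : IsOpen U) (hKU : K ⊆ U) :
    ∃ (χ : E → ℝ) (L : Set E), ContDiff ℝ ∞ χ ∧ IsCompact L ∧ L ⊆ U ∧
      (∀ q ∈ K, χ =ᶠ[𝓝 q] fun _ => 1) ∧ ∀ q, q ∉ L → χ q = 0 := by
  obtain ⟨L, hL, h1, h2⟩ := exists_compact_between hK hU hKU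
  obtain ⟨f, h3, h4, -⟩ := exists_contMDiffMap_one_nhds_of_subset_interior (n := (⊤ : ℕ∞))
    𝓘(ℝ, E) hK.isClosed h1
  exact ⟨f, L, f.contMDiff.contDiff, hL, h2, fun q hq => h3.filter_mono (nhds_le_nhdsSet hq), h4⟩

/-- real closed even forms as complex forms -/
theorem ofR_mem_Z (hs : Sm X c) (he : ∀ q, inv (c q) = c q) (hc : Cl X c) :
    (fun q => Cx.ofR (c q)) ∈ Z X :=
  ⟨fun q => Cx.ext (he q) (map_zero _), fun q hq => ⟨hs q hq, contDiffAt_const⟩, fun q hq =>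
    Cx.ext (hc q hq) (by
      change res X q (d (fun _ => 0) q) = 0
      rw [d_const, map_zero])⟩

theorem pullC_mul (f : F → E) (a b : E → CF E) (p : F) :
    pullC f (fun q => a q * b q) p = pullC f a p * pullC f b p := map_mul (pbC _) _ _

theorem pullC_ofR (f : F → E) (a : E → Ext E) (p : F) :
    pullC f (fun q => Cx.ofR (a q)) p = Cx.ofR (pull f a p) := Cx.ext rfl (map_zero _)

/-- a retraction of a neighbourhood `O` of `g (Y)` onto `Y`, and cut-off functions -/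
structure Tube (Y : Set E') (g : E' → E) where
  /-- the retraction -/
  R : E → E'
  /-- vanishes near `g (Y)` -/
  ρ : E → ℝ
  /-- equal to one where `ρ ≠ 1` -/
  χ : E → ℝ
  /-- the neighbourhood -/
  O : Set E
  oO : IsOpen O
  RC : ∀ q ∈ O, ContDiffAt ℝ ∞ R q
  maps : MapsTo R O Y
  left : ∀ y ∈ Y, R (g y) = y
  ρC : ContDiff ℝ ∞ ρ
  χC : ContDiff ℝ ∞ χ
  ρ0 : ∀ y ∈ Y, ρ =ᶠ[𝓝 (g y)] fun _ => 0
  sup : tsupport χ ⊆ O
  alt : ∀ q, (χ =ᶠ[𝓝 q] fun _ => 1) ∨ ρ =ᶠ[𝓝 q] fun _ => 1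

theorem Dv.exists_tube (h : Dv n X Y oY g) {U : Set E} (hU : IsOpen U) (hYU : g '' Y ⊆ U) :
    ∃ T : Tube Y g, T.O ⊆ U := by
  obtain ⟨G, hG, hGg⟩ := h.exists_inv
  obtain ⟨r, O, hO, hZO, hr, hm, h1⟩ := R208.OE.exists_ret h.clo_image
  obtain ⟨f₁, L₁, a1, a2, a3, a4, a5⟩ := exists_cutoff h.clo_image.compact (hO.inter hU)
    (subset_inter hZO hYU)
  obtain ⟨f₂, L₂, b1, b2, b3, b4, b5⟩ := exists_cutoff a2 (hO.inter hU) a3
  refine ⟨⟨fun q => G (r q), fun q => 1 - f₁ q, f₂, O ∩ U, hO.inter hU,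
    fun q hq => hG.contDiffAt.comp q (hr.contDiffAt (hO.mem_nhds hq.1)), fun q hq => ?_,
    fun y hy => ?_, contDiff_const.sub a1, b1, fun y hy => ?_, ?_, fun q => ?_⟩, inter_subset_right⟩
  · obtain ⟨y, hy, h2⟩ := hm hq.1
    change G (r q) ∈ Y
    rw [← h2, hGg y hy]; exact hy
  · rw [h1 _ ⟨y, hy, rfl⟩, hGg y hy]
  · filter_upwards [a4 _ ⟨y, hy, rfl⟩] with q hq
    rw [hq, sub_self]
  · refine (closure_minimal (fun q hq => ?_) b2.isClosed).trans b3
    by_contra h2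
    exact hq (b5 q h2)
  · by_cases hq : q ∈ L₁
    · exact Or.inl (b4 q hq)
    · right
      filter_upwards [a2.isClosed.isOpen_compl.mem_nhds hq] with q' hq'
      rw [a5 q' hq', sub_zero]

namespace Tube

variable (T : Tube Y g) {w : E' → CF E'} {q : E}

theorem χ1 {y : E'} (hy : y ∈ Y) : T.χ =ᶠ[𝓝 (g y)] fun _ => 1 :=
  (T.alt _).resolve_right fun h => zero_ne_one ((T.ρ0 y hy).eq_of_nhds.symm.trans h.eq_of_nhds)

theorem mem_O (h : T.χ =ᶠ[𝓝 q] fun _ => 1) : q ∈ T.O :=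
  T.sup (subset_tsupport _ (by rw [Function.mem_support, h.eq_of_nhds]; exact one_ne_zero))

/-- extension of a form on `Y` -/
def ext (w : E' → CF E') (q : E) : CF E :=
  ⟨T.χ q • (pullC T.R w q).re, T.χ q • (pullC T.R w q).im⟩

theorem ext_ev (h : T.χ =ᶠ[𝓝 q] fun _ => 1) : T.ext w =ᶠ[𝓝 q] pullC T.R w := by
  filter_upwards [h] with q' hq'
  rw [ext, hq', one_smul, one_smul]

theorem ext_cd (hw : Smo Y w) (q : E) : CD ∞ (T.ext w) q := by
  by_cases hq : q ∈ tsupport T.χ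
  · have h1 : CD ∞ (pullC T.R w) q :=
      (hw _ (T.maps (T.sup hq))).pullC (T.RC q (T.sup hq)) (by simp)
    exact ⟨T.χC.contDiffAt.smul h1.re, T.χC.contDiffAt.smul h1.im⟩
  · refine (CD.const 0).congr ?_
    filter_upwards [notMem_tsupport_iff_eventuallyEq.1 hq] with q' hq'
    rw [ext, hq', Pi.zero_apply, zero_smul, zero_smul]
    rfl

theorem ext_even (hw : w ∈ Z Y) (q : E) : invC (T.ext w q) = T.ext w q := by
  have h1 : invC (pullC T.R w q) = pullC T.R w q := by rw [pullC, ← pbC_invC, hw.1]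
  exact Cx.ext (by rw [ext, invC_re, map_smul, ← invC_re, h1])
    (by rw [ext, invC_im, map_smul, ← invC_im, h1])

theorem dC_ext (hw : w ∈ Z Y) (h : T.χ =ᶠ[𝓝 q] fun _ => 1) : dC (T.ext w) q = 0 := by
  have hq := T.mem_O h
  have hR := T.RC q hq
  rw [dC_congr (T.ext_ev h), dC_pullC (hR.of_le two_le) (hw.2.1.cd1 (T.maps hq))]
  have hmem : ∀ v, fderiv ℝ T.R q v ∈ Tan Y (T.R q) := fun v =>
    fderiv_mem_Tan (hR.differentiableAt (by simp))
      (by filter_upwards [T.oO.mem_nhds hq] with z hz using T.maps hz) v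
  have hA : ((fderiv ℝ T.R q : E →L[ℝ] E') : E →ₗ[ℝ] E') = (Tan Y (T.R q)).subtype ∘ₗ
      ((fderiv ℝ T.R q : E →L[ℝ] E') : E →ₗ[ℝ] E').codRestrict _ hmem := by
    ext v; rfl
  rw [pullC, hA, ← pbC_comp,
    show pbC (Tan Y (T.R q)).subtype _ = rs Y (T.R q) _ from rfl, hw.2.2 _ (T.maps hq), map_zero]

theorem rs_ext {Q : Set F} {k : F → E} {v : F → E'} {p : F} (hp : p ∈ Q)
    (hk : DifferentiableAt ℝ k p) (hv : DifferentiableAt ℝ v p) (hvY : MapsTo v Q Y)
    (hkv : ∀ p ∈ Q, k p = g (v p)) (w : E' → CF E') :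
    rs Q p (pullC k (T.ext w) p) = rs Q p (pullC v w p) := by
  have h1 : T.χ =ᶠ[𝓝 (k p)] fun _ => 1 := by rw [hkv p hp]; exact T.χ1 (hvY hp)
  have hR : DifferentiableAt ℝ T.R (k p) := (T.RC _ (T.mem_O h1)).differentiableAt (by simp)
  have key : ∀ a : E' → Ext E', res Q p (pull k (pull T.R a) p) = res Q p (pull v a p) := fun a => by
    rw [pull_comp hk hR]
    refine res_pull_congr a hp (hR.comp p hk) hv ?_
    filter_upwards [self_mem_nhdsWithin] with p' hp'
    rw [Function.comp_apply, hkv p' hp', T.left _ (hvY hp')]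
  rw [pullC, (T.ext_ev h1).eq_of_nhds]
  exact Cx.ext (key fun y => (w y).re) (key fun y => (w y).im)

/-- the cut-off connection form -/
def β (θ : E → Ext E) (q : E) : Ext E := T.ρ q • θ q

/-- the Thom form -/
def τ (θ c : E → Ext E) (q : E) : Ext E := c q + d (T.β θ) q

/-- the Gysin form -/
def gys (θ c : E → Ext E) (w : E' → CF E') (q : E) : CF E := Cx.ofR (T.τ θ c q) * T.ext w q

theorem β_zero {y : E'} (hy : y ∈ Y) : T.β θ =ᶠ[𝓝 (g y)] fun _ => 0 := by
  filter_upwards [T.ρ0 y hy] with q hq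
  rw [β, hq, zero_smul]

theorem β_one (h : T.ρ =ᶠ[𝓝 q] fun _ => 1) : T.β θ =ᶠ[𝓝 q] θ := by
  filter_upwards [h] with q hq
  rw [β, hq, one_smul]

theorem τ_on {y : E'} (hy : y ∈ Y) : T.τ θ c (g y) = c (g y) := by
  rw [τ, d_congr (T.β_zero hy), d_const, add_zero]

end Tube

/-- an embedded cooriented divisor `g : Y → X` with a singular connection form `θ` of
curvature `c` -/
structure Th (n : ℕ) (X : Set E) (o : E → Ext E) (Y : Set E') (oY : E' → Ext E') (g : E' → E)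
    (θ c : E → Ext E) : Prop where
  clo : Clo (n + 2) X
  ori : Ori (n + 2) X o
  dv : Dv n X Y oY g
  cs : Sm X c
  ce : ∀ q, inv (c q) = c q
  θs : ∀ q ∈ X, q ∉ g '' Y → ContDiffAt ℝ ∞ θ q
  θo : ∀ q, inv (θ q) = - θ q
  loc : ∀ x ∈ X, ∃ z, LEq n X o Y oY g z x ∧ Sg X θ c z x

theorem Sg.closed {m : ℕ} (hX : Sub m X) {x : E} (hx : x ∈ X) {s : E → ℂ} (h : Sg X θ c s x)
    (hc : DifferentiableAt ℝ c x) : res X x (d c x) = 0 := by
  obtain ⟨a, h⟩ := h
  have h2 := (h.self_of_nhdsWithin hx).2.1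
  have h3 : DifferentiableAt ℝ (d a) x :=
    (contDiffAt_d (m := 1) (h2.of_le two_le) (by norm_num)).differentiableAt (by simp)
  have h4 := res_d_zero hX hx (h3.fun_add hc) (h.mono fun q hq => hq.2.2.2.1)
  rwa [d_add h3 hc, d_d (h2.of_le two_le), zero_add] at h4

namespace Th

variable (h : Th n X o Y oY g θ c)
include h

theorem cl : Cl X c := fun x hx => by
  obtain ⟨z, -, hz⟩ := h.loc x hx
  exact hz.closed h.clo.sub hx (h.cs.diff hx)

theorem cZ : (fun q => Cx.ofR (c q)) ∈ Z X := ofR_mem_Z h.cs h.ce h.cl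

/-- the class of the curvature -/
def cH : H X := cls _ h.cZ

theorem pld : PLd (ι := Unit) (E' := fun _ => E') n X o (fun _ => Y) (fun _ => oY) (fun _ => g)
    (fun _ => 1) θ c := by
  have := PLd.of_sg (ι := Unit) (E' := fun _ => E') (n := n) (X := X) (o := o) (Y := fun _ => Y)
    (oY := fun _ => oY) (g := fun _ => g) (θ := θ) (c := c) (k := fun _ => 1) fun x hx => by
      obtain ⟨z, h1, h2⟩ := h.loc x hx
      exact ⟨fun _ => z, fun _ => h1, by simpa using h2⟩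
  simpa using this

variable (T : Tube Y g)

theorem β_sm : Sm X (T.β θ) := fun q hq => by
  by_cases hY : q ∈ g '' Y
  · obtain ⟨y, hy, rfl⟩ := hY
    exact contDiffAt_const.congr_of_eventuallyEq (T.β_zero hy)
  · exact T.ρC.contDiffAt.smul (h.θs q hq hY)

theorem β_odd (q : E) : inv (T.β θ q) = - T.β θ q := by
  rw [Tube.β, map_smul, h.θo, smul_neg]

theorem τ_sm : Sm X (T.τ θ c) := h.cs.add (h.β_sm T).d

theorem τ_even (q : E) : inv (T.τ θ c q) = T.τ θ c q := by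
  rw [Tube.τ, map_add, h.ce, inv_d_odd (h.β_odd T)]

theorem τ_cl : Cl X (T.τ θ c) :=
  Cl.add h.cs (h.β_sm T).d h.cl (R208.T.d_d' (h.β_sm T))

/-- the Thom form vanishes away from the divisor -/
theorem τ_zero {q : E} (hq : q ∈ X) (h1 : T.ρ =ᶠ[𝓝 q] fun _ => 1) : res X q (T.τ θ c q) = 0 := by
  have hY : q ∉ g '' Y := by
    rintro ⟨y, hy, rfl⟩
    exact zero_ne_one ((T.ρ0 y hy).eq_of_nhds.symm.trans h1.eq_of_nhds)
  obtain ⟨z, h2, h3⟩ := h.loc q hq
  rw [Tube.τ, d_congr (T.β_one h1)]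
  exact h3.d_eq h.clo.sub hq (fun h0 => hY ((h2.zero_iff hq).1 h0))
    ((h.θs q hq hY).differentiableAt (by simp))

theorem τZ : (fun q => Cx.ofR (T.τ θ c q)) ∈ Z X := ofR_mem_Z (h.τ_sm T) (h.τ_even T) (h.τ_cl T)


theorem gysZ {w : E' → CF E'} (hw : w ∈ Z Y) : T.gys θ c w ∈ Z X := by
  have h1 := h.τZ T
  refine ⟨fun q => by rw [Tube.gys, map_mul, h1.1 q, T.ext_even hw],
    fun q hq => (h1.2.1 q hq).mul (T.ext_cd hw.2.1 q), fun q hq => ?_⟩
  have h2 := dC_mul (h1.2.1.cd1 hq) ((T.ext_cd hw.2.1 q).of_le (m := 1) (by exact_mod_cast le_top))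
  rw [show T.gys θ c w = fun q => Cx.ofR (T.τ θ c q) * T.ext w q from rfl, h2, map_add, map_mul,
    map_mul, h1.2.2 q hq, zero_mul, zero_add, h1.1 q]
  rcases T.alt q with h3 | h3
  · rw [T.dC_ext hw h3, map_zero, mul_zero]
  · rw [show rs X q (Cx.ofR (T.τ θ c q)) = 0 from Cx.ext (h.τ_zero T hq h3) (map_zero _), zero_mul]

theorem gys_on {w : E' → CF E'} {y : E'} (hy : y ∈ Y) :
    rs Y y (pullC g (T.gys θ c w) y) = rs Y y (pullC g (fun q => Cx.ofR (c q)) y * w y) := by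
  have h1 := T.rs_ext hy (h.dv.smap.diff hy) differentiableAt_id (fun _ hy => hy)
    (fun _ _ => rfl) w
  have h2 : pullC id w y = w y :=
    Cx.ext (pull_id (fun y => (w y).re) y) (pull_id (fun y => (w y).im) y)
  rw [show T.gys θ c w = fun q => Cx.ofR (T.τ θ c q) * T.ext w q from rfl, pullC_mul, map_mul,
    map_mul, h1, h2, pullC, pullC, T.τ_on hy]

variable {ι : Type*} [Fintype ι] {F' : ι → Type*} [∀ i, NormedAddCommGroup (F' i)]
  [∀ i, NormedSpace ℝ (F' i)] [∀ i, FiniteDimensional ℝ (F' i)]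
  {k : ℕ} {P : Set F} {oP : F → Ext F} {u : F → E}
  {Y' : ∀ i, Set (F' i)} {oY' : ∀ i, F' i → Ext (F' i)} {g' : ∀ i, F' i → F} {m : ι → ℝ}
  {u' : ∀ i, F' i → E'}

/-- base change, on forms -/
theorem JC_bc (hP : Clo (k + 2) P) (hoP : Ori (k + 2) P oP) (hu : SMap P X u)
    (hD : ∀ i, Dv k P (Y' i) (oY' i) (g' i)) (hL : PLd k P oP Y' oY' g' m (pull u θ) (pull u c))
    (hu' : ∀ i, SMap (Y' i) Y (u' i)) (hc : ∀ i, ∀ y ∈ Y' i, u (g' i y) = g (u' i y))
    {w : E' → CF E'} (hw : w ∈ Z Y) {φ : F → CF F} (hφ : φ ∈ Z P) :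
    JC (k + 2) P oP (pullC u (T.gys θ c w) * φ)
      = ∑ i, (m i : ℂ) * JC k (Y' i) (oY' i) (pullC (u' i) w * pullC (g' i) φ) := by
  have h1 : ∀ p ∈ P, CD 1 (pullC u (T.ext w)) p := fun p hp =>
    ((T.ext_cd hw.2.1 _).of_le (by exact_mod_cast le_top)).pullC (hu.c2 hp) (by norm_num)
  have h2 := hL.thomC hP hoP hD (continuousOn_of_contDiffAt (h.cs.pull hu)) (β := pull u (T.β θ))
    (fun p hp => ⟨((h.β_sm T).pull hu p hp).of_le (by exact_mod_cast le_top),
      inv_pull u (h.β_odd T _)⟩)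
    (Φ := fun p => pullC u (T.ext w) p * φ p) (fun p hp => (h1 p hp).mul (hφ.2.1.cd1 hp))
    (fun p hp => (T.alt (u p)).imp (fun h3 => by
      rw [dC_mul (h1 p hp) (hφ.2.1.cd1 hp), dC_pullC (hu.c2 hp)
        ((T.ext_cd hw.2.1 _).of_le (by exact_mod_cast le_top)), pullC, T.dC_ext hw h3, map_zero,
        zero_mul, zero_add, map_mul, hφ.2.2 p hp, mul_zero])
      fun h3 => by rw [pull, pull, (T.β_one h3).eq_of_nhds])
  rw [JC_congr (η := fun q => Cx.ofR (pull u c q + d (pull u (T.β θ)) q)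
    * (pullC u (T.ext w) q * φ q)) hP fun p hp => ?_, h2]
  · refine Finset.sum_congr rfl fun i _ => ?_
    rw [JC_congr (hD i).clo fun y hy => ?_]
    have h3 := T.rs_ext hy (k := fun y => u (g' i y))
      ((hu.comp (hD i).smap).diff hy) ((hu' i).diff hy) (hu' i).maps (hc i) w
    have h4 : pullC (g' i) (pullC u (T.ext w)) y = pullC (fun y => u (g' i y)) (T.ext w) y :=
      Cx.ext (pull_comp (om := fun q => (T.ext w q).re) ((hD i).smap.diff hy)
          (hu.diff ((hD i).smap.maps hy)))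
        (pull_comp (om := fun q => (T.ext w q).im) ((hD i).smap.diff hy)
          (hu.diff ((hD i).smap.maps hy)))
    rw [pullC_mul, map_mul, h4, h3, Pi.mul_apply, map_mul]
  · rw [Pi.mul_apply, show T.gys θ c w = fun q => Cx.ofR (T.τ θ c q) * T.ext w q from rfl,
      pullC_mul, pullC_ofR, mul_assoc, d_pull (hu.c2 hp) ((h.β_sm T).diff (hu.maps hp)), ← pull_add]
    rfl

/-! ### classes -/

/-- a chosen tube -/
def tube : Tube Y g := (h.dv.exists_tube isOpen_univ (subset_univ _)).choose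

/-- the Gysin image of a class (it is the adjoint of `g^*`, see `gys_adj`) -/
def gys (a : H Y) : H X := cls _ (h.gysZ h.tube (Function.surjInv H.mk_surj a).2)

theorem gys_rep (a : H Y) :
    ∃ w, ∃ hw : w ∈ Z Y, cls w hw = a ∧ h.gys a = cls _ (h.gysZ h.tube hw) :=
  ⟨_, (Function.surjInv H.mk_surj a).2, Function.surjInv_eq H.mk_surj a, rfl⟩

theorem gys_self (a : H Y) : H.map h.dv.smap (h.gys a) = H.map h.dv.smap h.cH * a := by
  obtain ⟨w, hw, e1, e2⟩ := h.gys_rep a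
  rw [e2, ← e1, cH, H.map_cls, H.map_cls, ← cls_mul]
  exact cls_congr fun y hy => h.gys_on h.tube hy

/-- **base change** -/
theorem gys_bc (hP : Clo (k + 2) P) (hoP : Ori (k + 2) P oP) (hu : SMap P X u)
    (hD : ∀ i, Dv k P (Y' i) (oY' i) (g' i)) (hL : PLd k P oP Y' oY' g' m (pull u θ) (pull u c))
    (hu' : ∀ i, SMap (Y' i) Y (u' i)) (hc : ∀ i, ∀ y ∈ Y' i, u (g' i y) = g (u' i y))
    (a : H Y) (b : H P) :
    integ hP hoP (H.map hu (h.gys a) * b) = ∑ i, (m i : ℂ) *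
      integ (hD i).clo (hD i).ori (H.map (hu' i) a * H.map (hD i).smap b) := by
  obtain ⟨φ, hφ, rfl⟩ := H.exists_rep b
  obtain ⟨w, hw, e1, e2⟩ := h.gys_rep a
  rw [e2, ← e1, H.map_cls, ← cls_mul, integ_cls, h.JC_bc h.tube hP hoP hu hD hL hu' hc hw hφ]
  refine Finset.sum_congr rfl fun i _ => ?_
  rw [H.map_cls, H.map_cls, ← cls_mul, integ_cls]

/-- **adjointness** -/
theorem gys_adj (a : H Y) (b : H X) :
    integ h.clo h.ori (h.gys a * b) = integ h.dv.clo h.dv.ori (a * H.map h.dv.smap b) := by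
  have h1 : ∀ a : E → Ext E, pull (fun x => x) a = a := fun a => funext (pull_id a)
  have := h.gys_bc (ι := Unit) (F' := fun _ => E') (m := fun _ => 1) h.clo h.ori (SMap.id X)
    (fun _ => h.dv) (by rw [h1, h1]; exact h.pld) (fun _ => SMap.id Y) (fun _ _ _ => rfl) a b
  simpa [H.map_id] using this

end Th

/-- **PL0** on classes -/
theorem PLd.integ {ι : Type*} [Fintype ι] {F' : ι → Type*} [∀ i, NormedAddCommGroup (F' i)]
    [∀ i, NormedSpace ℝ (F' i)] [∀ i, FiniteDimensional ℝ (F' i)]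
    {Y' : ∀ i, Set (F' i)} {oY' : ∀ i, F' i → Ext (F' i)} {g' : ∀ i, F' i → E} {m : ι → ℝ}
    (hX : Clo (n + 2) X) (ho : Ori (n + 2) X o) (hD : ∀ i, Dv n X (Y' i) (oY' i) (g' i))
    (h : PLd n X o Y' oY' g' m θ c) (hc : (fun q => Cx.ofR (c q)) ∈ Z X) (b : H X) :
    integ hX ho (cls _ hc * b)
      = ∑ i, (m i : ℂ) * integ (hD i).clo (hD i).ori (H.map (hD i).smap b) := by
  obtain ⟨φ, hφ, rfl⟩ := H.exists_rep b
  rw [← cls_mul, integ_cls]
  simp only [H.map_cls, integ_cls]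
  exact h.closedC hX ho hD hc.2.1.cont_re hφ

theorem Th.pl0 (h : Th n X o Y oY g θ c) (b : H X) :
    integ h.clo h.ori (h.cH * b) = integ h.dv.clo h.dv.ori (H.map h.dv.smap b) := by
  simpa [Th.cH] using PLd.integ h.clo h.ori (fun _ => h.dv) h.pld h.cZ b

end Crest.Agent.X262.PL
end
end

-- ▼ part X262/PL/Hol
section

/-!
# Row 262, PL (helper92), part Hol: holomorphic equations are positive

* `PosO ε o` : the orientation `o` is positive in the holomorphic charts;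
* `dv_of_hol` : an injective holomorphic immersion is a `Dv`;
* `lEq_of_hol` : a holomorphic local equation with nonzero differential is an `LEq`.
-/

set_option autoImplicit false
set_option linter.unusedSectionVars false

open Set Filter Topology Module
open scoped ContDiff
open Crest.Agent.R208.F Crest.Agent.R208.FI Crest.Agent.R208.CW
open Crest.Agent.R275.Geo (Cn RI rc Atl)
open Crest.Agent.R273.Map_835 (HolMap rd dm mem_dm)
open Crest.Agent.X262.Man

noncomputable section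

namespace Crest.Agent.X262.PL

/-! ### linear algebra -/

/-- forget the first coordinate -/
def tl (m : ℕ) : Cn (m + 1) →ₗ[ℂ] Cn m where
  toFun u := WithLp.toLp 2 fun b => u b.succ
  map_add' _ _ := rfl
  map_smul' _ _ := rfl

theorem cL_sb {n : ℕ} (k : Fin (2 * n)) (a : Fin n) : cL n (sb (2 * n) k) a
    = (if (k : ℕ) = 2 * a then 1 else 0) + (if (k : ℕ) = 2 * a + 1 then Complex.I else 0) := by
  have h : ∀ l : Fin (2 * n), sb (2 * n) k l = if (k : ℕ) = l then 1 else 0 := fun l => by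
    simp [sb, Fin.ext_iff, eq_comm]
  rw [cL_apply, h, h, ix_val, ix_val]
  simp only [Fin.val_zero, Fin.val_one, zero_add, add_comm 1]
  split_ifs <;> simp

theorem eq_zero_of_tl {m : ℕ} {u : Cn (m + 1)} (h0 : u 0 = 0) (h : tl m u = 0) : u = 0 := by
  ext b
  refine Fin.cases h0 (fun b => ?_) b
  exact congrArg (fun v : Cn m => v b) h

/-- the complex linear map `e₀ ↦ a`, `e_{b+1} ↦ J e_b` -/
def blk {m : ℕ} (a : Cn (m + 1)) (J : Cn m →ₗ[ℂ] Cn (m + 1)) : Cn (m + 1) →ₗ[ℂ] Cn (m + 1) :=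
  ((EuclideanSpace.proj (0 : Fin (m + 1)) : Cn (m + 1) →L[ℂ] ℂ) : Cn (m + 1) →ₗ[ℂ] ℂ).smulRight a
    + J ∘ₗ tl m

theorem blk_apply {m : ℕ} (a : Cn (m + 1)) (J : Cn m →ₗ[ℂ] Cn (m + 1)) (u : Cn (m + 1)) :
    blk a J u = u 0 • a + J (tl m u) := rfl

theorem blk_sb {m : ℕ} (a : Cn (m + 1)) (J : Cn m →ₗ[ℂ] Cn (m + 1)) :
    (fun k : Fin (2 * m + 2) => blk a J (cL (m + 1) (sb (2 * (m + 1)) k)))
      = Matrix.vecCons a (Matrix.vecCons (Complex.I • a) fun j => J (cL m (sb (2 * m) j))) := by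
  funext k
  rw [blk_apply]
  refine Fin.cases ?_ (fun k => Fin.cases ?_ (fun j => ?_) k) k
  · have h : tl m (cL (m + 1) (sb (2 * (m + 1)) (0 : Fin (2 * m + 2)))) = 0 := by
      ext b
      refine (cL_sb (n := m + 1) _ b.succ).trans ?_
      simp
    rw [h, cL_sb (n := m + 1)]
    simp
  · have h : tl m (cL (m + 1) (sb (2 * (m + 1)) (Fin.succ (0 : Fin (2 * m + 1))))) = 0 := by
      ext b
      refine (cL_sb (n := m + 1) _ b.succ).trans ?_
      rw [if_neg (by rw [Fin.val_succ, Fin.val_succ, Fin.val_zero]; omega),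
        if_neg (by rw [Fin.val_succ, Fin.val_succ, Fin.val_zero]; omega)]
      simp
    rw [h, cL_sb (n := m + 1), if_neg (by rw [Fin.val_succ, Fin.val_zero, Fin.val_zero]; omega),
      if_pos (by rw [Fin.val_succ, Fin.val_zero, Fin.val_zero])]
    simp
  · have h : tl m (cL (m + 1) (sb (2 * (m + 1)) (Fin.succ (Fin.succ j) : Fin (2 * m + 2))))
        = cL m (sb (2 * m) j) := by
      ext b
      refine (cL_sb (n := m + 1) _ b.succ).trans ?_
      rw [cL_sb]
      simp only [Fin.val_succ]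
      congr 1
      · exact if_congr (by omega) rfl rfl
      · exact if_congr (by omega) rfl rfl
    rw [h, cL_sb (n := m + 1)]
    simp

theorem evA_blk {m : ℕ} {a : Cn (m + 1)} {J : Cn m →ₗ[ℂ] Cn (m + 1)} {l : Cn (m + 1) →ₗ[ℂ] ℂ}
    (hJ : Function.Injective J) (hl : ∀ w, l (J w) = 0) (ha : l a = 1) {c : Ext (Cn (m + 1))}
    (hc : 0 < topC (m + 1) c) : 0 < evA _ (2 * m + 2) c
      (Matrix.vecCons a (Matrix.vecCons (Complex.I • a) fun j => J (cL m (sb (2 * m) j)))) := by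
  have h1 : LinearMap.det (blk a J) ≠ 0 := by
    rw [← isUnit_iff_ne_zero, ← LinearMap.isUnit_iff_isUnit_det, LinearMap.isUnit_iff_ker_eq_bot,
      LinearMap.ker_eq_bot']
    intro u hu
    have h2 := congrArg l hu
    rw [blk_apply, map_add, map_smul, ha, hl, add_zero, map_zero, smul_eq_mul, mul_one] at h2
    rw [blk_apply, h2, zero_smul, zero_add] at hu
    exact eq_zero_of_tl h2 (hJ (hu.trans (map_zero J).symm))
  have h2 := topC_pb_hol (blk a J) c
  rw [topC_apply, pb_comp, top_pb] at h2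
  rw [← blk_sb]
  exact (mul_pos (Complex.normSq_pos.2 h1) hc).trans_eq h2.symm

/-! ### embedded manifolds -/

variable {n m : ℕ} {M N : Type} [TopologicalSpace M] [TopologicalSpace N] [CompactSpace M]
  [CompactSpace N] {E E' : Type} [NormedAddCommGroup E] [NormedSpace ℝ E] [FiniteDimensional ℝ E]
  [NormedAddCommGroup E'] [NormedSpace ℝ E'] [FiniteDimensional ℝ E']

/-- the orientation is positive in the holomorphic charts -/
def PosO {A : Atl n M} (ε : Emb A E) (o : E → Ext E) : Prop :=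
  ∀ i, ∀ z ∈ (A.e i).target, 0 < topC n (pull (ε.par i) o z)

theorem eventually_X {A : Atl n M} (ε : Emb A E) {x : M} {p : E → Prop} :
    (∀ᶠ q in 𝓝[ε.X] (ε.j x), p q) ↔ ∀ᶠ y in 𝓝 x, p (ε.j y) := by
  rw [Emb.X, ← ε.isClosedEmbedding.isEmbedding.map_nhds_eq, eventually_map]

variable {A : Atl n M} {B : Atl m N} (ε : Emb A E) (ε' : Emb B E') {p : N → M} {g : E' → E}

theorem fderiv_amb (hp : HolMap B A p) (hg : ∀ y, g (ε'.j y) = ε.j (p y)) {y : N}
    (hd : DifferentiableAt ℝ g (ε'.j y)) {k : B.ι} {i : A.ι} (hk : y ∈ (B.e k).source)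
    (hi : p y ∈ (A.e i).source) (w : Cn m) :
    fderiv ℝ g (ε'.j y) (fderiv ℝ (ε'.par k) (B.e k y) w)
      = fderiv ℝ (ε.par i) (A.e i (p y)) (fderiv ℂ (rd B A p k i) (B.e k y) w) := by
  have h0 := mem_dm (p := p) hk hi
  have h1 : HasFDerivAt g (fderiv ℝ g (ε'.j y)) (ε'.par k (B.e k y)) := by
    rw [ε'.par_e hk]; exact hd.hasFDerivAt
  have h2 := h1.comp _ (ε'.diff_par h0.1).hasFDerivAt
  have h3 : rd B A p k i (B.e k y) = A.e i (p y) := by rw [rd, (B.e k).left_inv hk]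
  have h4 : HasFDerivAt (ε.par i) (fderiv ℝ (ε.par i) (A.e i (p y))) (rd B A p k i (B.e k y)) := by
    rw [h3]; exact (ε.diff_par ((A.e i).map_source hi)).hasFDerivAt
  have h5 := (h4.comp _ ((hp.diffAt h0).hasFDerivAt.restrictScalars ℝ)).congr_of_eventuallyEq
    (ε'.comp_par ε hp hg h0)
  exact congrArg (fun L => L w) (h2.unique h5)

theorem dv_of_hol (hp : HolMap B A p) (hg : ∀ y, g (ε'.j y) = ε.j (p y))
    (hs : ∀ y, ContDiffAt ℝ ∞ g (ε'.j y)) {oY : E' → Ext E'} (ho : Ori (2 * m) ε'.X oY)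
    (hinj : Function.Injective p)
    (himm : ∀ y k i, y ∈ (B.e k).source → p y ∈ (A.e i).source →
      Function.Injective (fderiv ℂ (rd B A p k i) (B.e k y))) :
    Dv (2 * m) ε.X ε'.X oY g := by
  refine ⟨ε'.clo, ho, ⟨ε'.forall_X.2 hs, ?_⟩, ?_, ε'.forall_X.2 fun y v hv h0 => ?_⟩
  · rintro _ ⟨y, rfl⟩
    rw [hg]; exact ε.mem _
  · rintro _ ⟨y, rfl⟩ _ ⟨y', rfl⟩ h
    rw [hg, hg] at h
    rw [hinj (ε.inj h)]
  · obtain ⟨k, hk⟩ := B.cover y
    obtain ⟨i, hi⟩ := A.cover (p y)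
    rw [← ε'.par_e hk, ε'.tan_eq ((B.e k).map_source hk)] at hv
    obtain ⟨w, rfl⟩ := hv
    have h1 := fderiv_amb ε ε' hp hg ((hs y).differentiableAt (by simp)) hk hi w
    have h2 : fderiv ℂ (rd B A p k i) (B.e k y) w = 0 :=
      ε.imm i _ ((A.e i).map_source hi) ((h1.symm.trans h0).trans (map_zero _).symm)
    rw [himm y k i hk hi (h2.trans (map_zero _).symm), map_zero]

theorem image_amb (hg : ∀ y, g (ε'.j y) = ε.j (p y)) {x : M} :
    ε.j x ∈ g '' ε'.X ↔ x ∈ range p := by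
  constructor
  · rintro ⟨_, ⟨y, rfl⟩, h⟩
    exact ⟨y, ε.inj ((hg y).symm.trans h)⟩
  · rintro ⟨y, rfl⟩
    exact ⟨_, ε'.mem y, hg y⟩

/-- a holomorphic local equation is positive -/
theorem lEq_of_hol {A : Atl (m + 1) M} (ε : Emb A E) (hp : HolMap B A p)
    (hg : ∀ y, g (ε'.j y) = ε.j (p y)) (hs : ∀ y, DifferentiableAt ℝ g (ε'.j y))
    {o : E → Ext E} {oY : E' → Ext E'} (ho : PosO ε o) (hoY : PosO ε' oY)
    (himm : ∀ y k i, y ∈ (B.e k).source → p y ∈ (A.e i).source →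
      Function.Injective (fderiv ℂ (rd B A p k i) (B.e k y)))
    {z : E → ℂ} {x : M}
    (hz : ∀ᶠ y in 𝓝 x, ContDiffAt ℝ ∞ z (ε.j y) ∧ (z (ε.j y) = 0 ↔ y ∈ range p))
    (hd : x ∈ range p → ∃ i, x ∈ (A.e i).source ∧
      DifferentiableAt ℂ (fun w => z (ε.par i w)) (A.e i x) ∧
      fderiv ℂ (fun w => z (ε.par i w)) (A.e i x) ≠ 0) :
    LEq (2 * m) ε.X o ε'.X oY g z (ε.j x) := by
  refine ⟨(eventually_X ε).2 (hz.mono fun y hy => ⟨hy.1, hy.2.trans (image_amb ε ε' hg).symm⟩), ?_⟩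
  rintro _ ⟨y, rfl⟩ hy
  obtain rfl : p y = x := ε.inj ((hg y).symm.trans hy)
  obtain ⟨i, hi, h1, h2⟩ := hd ⟨y, rfl⟩
  obtain ⟨k, hk⟩ := B.cover y
  have hi' := (A.e i).map_source hi
  have hk' := (B.e k).map_source hk
  set l := fderiv ℂ (fun w => z (ε.par i w)) (A.e i (p y)) with hl
  set J := fderiv ℂ (rd B A p k i) (B.e k y) with hJ
  have h0 := mem_dm (p := p) hk hi
  have h3 : rd B A p k i (B.e k y) = A.e i (p y) := by rw [rd, (B.e k).left_inv hk]
  have hzl : ∀ u, fderiv ℝ z (ε.j (p y)) (fderiv ℝ (ε.par i) (A.e i (p y)) u) = l u := fun u => by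
    have a1 : HasFDerivAt z (fderiv ℝ z (ε.j (p y))) (ε.par i (A.e i (p y))) := by
      rw [ε.par_e hi]
      exact (hz.self_of_nhds.1.differentiableAt (by simp)).hasFDerivAt
    exact congrArg (fun L => L u) ((a1.comp _ (ε.diff_par hi').hasFDerivAt).unique
      (h1.hasFDerivAt.restrictScalars ℝ))
  have hlJ : ∀ w, l (J w) = 0 := fun w => by
    have a1 : HasFDerivAt (fun w => z (ε.par i w)) l (rd B A p k i (B.e k y)) := by
      rw [h3]; exact h1.hasFDerivAt
    have a2 := a1.comp _ (hp.diffAt h0).hasFDerivAt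
    have a3 : HasFDerivAt ((fun w => z (ε.par i w)) ∘ rd B A p k i) (0 : Cn m →L[ℂ] ℂ)
        (B.e k y) := by
      refine (hasFDerivAt_const (0 : ℂ) _).congr_of_eventuallyEq ?_
      have a4 : Tendsto (fun w => p ((B.e k).symm w)) (𝓝 (B.e k y)) (𝓝 (p y)) :=
        hp.cont.continuousAt.tendsto.comp ((B.e k).tendsto_symm hk)
      filter_upwards [a4.eventually hz, (hp.isOpen_dm k i).mem_nhds h0] with w hw hw'
      rw [Function.comp_apply, Emb.par, rd, (A.e i).left_inv hw'.2]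
      exact hw.2.2 ⟨_, rfl⟩
    exact congrArg (fun L => L w) (a2.unique a3)
  obtain ⟨a, ha⟩ : ∃ a, l a = 1 := by
    obtain ⟨b, hb⟩ : ∃ b, l b ≠ 0 := by
      by_contra h
      push Not at h
      exact h2 (ContinuousLinearMap.ext h)
    exact ⟨(l b)⁻¹ • b, by rw [map_smul, smul_eq_mul, inv_mul_cancel₀ hb]⟩
  have hT : ∀ u, fderiv ℝ (ε.par i) (A.e i (p y)) u ∈ Tan ε.X (ε.j (p y)) := fun u => by
    rw [← ε.par_e hi, ε.tan_eq hi']; exact ⟨u, rfl⟩
  refine ⟨_, _, fun j => fderiv ℝ (ε'.par k) (B.e k y) (cL m (sb (2 * m) j)), hT a,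
    hT (Complex.I • a), fun j => ?_, by rw [hzl, ha], by rw [hzl, map_smul, ha, smul_eq_mul, mul_one],
    mul_pos ?_ ?_⟩
  · rw [← ε'.par_e hk, ε'.tan_eq hk']; exact ⟨_, rfl⟩
  · have a1 := evA_blk (J := (J : Cn m →ₗ[ℂ] Cn (m + 1))) (l := (l : Cn (m + 1) →ₗ[ℂ] ℂ))
      (himm y k i hk hi) hlJ ha (ho i _ hi')
    rw [pull, evA_pb, ε.par_e hi] at a1
    refine a1.trans_eq (congrArg _ (funext fun r => ?_))
    refine Fin.cases rfl (fun r => Fin.cases rfl (fun j => ?_) r) r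
    exact (fderiv_amb ε ε' hp hg (hs y) hk hi _).symm
  · have a1 := hoY k _ hk'
    rw [topC_apply, pull, pb_comp, top_pb, ε'.par_e hk] at a1
    exact a1

end Crest.Agent.X262.PL
end
end

-- ▼ part X262/PL/Fs
section

/-!
# Row 262, PL (helper92), part Fs: the connection form of the tautological line

* `cn Z`   : `Im (∑ conj Zₖ dZₖ) / (2 π |Z|²)` for `Z : V → ℂ^{N+1}`; `cn_smul`, `d_cn`;
* `fs N`   : the Fubini-Study form `Im tr (Q dQ dQ) / 2 π` on the ambient space `Hm N`; `pull_fs`;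
* `glue`   : gluing of ambient functions along an embedded manifold; `res_d_congr`.
-/

set_option autoImplicit false
set_option linter.unusedSectionVars false

open Set Filter Topology Module
open scoped ContDiff ComplexConjugate
open Crest.Agent.R208.F Crest.Agent.R208.FI Crest.Agent.R208.CW Crest.Agent.R208.T
open Crest.Agent.R275.Geo (Cn Atl)
open Crest.Agent.R257.PN_835 (HC nsq pm pm_apply nsq_pos nsq_smul)
open Crest.Agent.X262.Man

noncomputable section

namespace Crest.Agent.X262.PL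

variable {V : Type} [NormedAddCommGroup V] [NormedSpace ℝ V] [FiniteDimensional ℝ V] {N : ℕ}

/-- the coordinates -/
def pj (k : Fin (N + 1)) : HC N →L[ℝ] ℂ := ContinuousLinearMap.proj k

@[simp] theorem pj_apply (k : Fin (N + 1)) (v : HC N) : pj k v = v k := rfl

/-- `∑ conj Zₖ dZₖ` -/
def lam (Z : HC N) : HC N →L[ℝ] ℂ := ∑ k, conj (Z k) • pj k

theorem lam_apply (Z v : HC N) : lam Z v = ∑ k, conj (Z k) * v k := by simp [lam]

/-- `∑ xₖ dyₖ - yₖ dxₖ` -/
def eta (Z : HC N) : Ext (HC N) :=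
  ∑ k, ((Z k).re • io (imD (pj k)) - (Z k).im • io (reD (pj k)))

theorem eta_eq (Z : HC N) : eta Z = io (imD (lam Z)) := by
  simp only [eta, ← map_smul, ← map_sub, ← map_sum]
  congr 1
  refine LinearMap.ext fun v => ?_
  simp [lam_apply, Complex.im_sum, sub_eq_add_neg]

theorem contDiff_re (k : Fin (N + 1)) : ContDiff ℝ ∞ fun Z : HC N => (Z k).re :=
  (Complex.reCLM.comp (pj k)).contDiff

theorem contDiff_im (k : Fin (N + 1)) : ContDiff ℝ ∞ fun Z : HC N => (Z k).im :=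
  (Complex.imCLM.comp (pj k)).contDiff

theorem contDiff_eta : ContDiff ℝ ∞ (eta (N := N)) :=
  ContDiff.sum fun k _ => ((contDiff_re k).smul_const _).sub ((contDiff_im k).smul_const _)

theorem d_eta (Z : HC N) : d eta Z = (2 : ℝ) • herm (pj (N := N)) := by
  have h1 := fun k : Fin (N + 1) => (contDiff_re k).differentiable (by simp) Z
  have h2 := fun k : Fin (N + 1) => (contDiff_im k).differentiable (by simp) Z
  unfold eta
  rw [d_sum _ fun k _ => ((h1 k).smul_const _).fun_sub ((h2 k).smul_const _), herm,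
    Finset.smul_sum]
  refine Finset.sum_congr rfl fun k _ => ?_
  have e1 : fderiv ℝ (fun Z : HC N => (Z k).re) Z = Complex.reCLM.comp (pj k) :=
    (Complex.reCLM.comp (pj k)).fderiv
  have e2 : fderiv ℝ (fun Z : HC N => (Z k).im) Z = Complex.imCLM.comp (pj k) :=
    (Complex.imCLM.comp (pj k)).fderiv
  rw [d_sub ((h1 k).smul_const _) ((h2 k).smul_const _), d_smul (h1 k) (differentiableAt_const _),
    d_smul (h2 k) (differentiableAt_const _), d_const, d_const, smul_zero, smul_zero, add_zero,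
    add_zero, e1, e2]
  change io (reD (pj k)) * io (imD (pj k)) - io (imD (pj k)) * io (reD (pj k)) = _
  rw [io_anti (imD (pj k)), two_smul, sub_neg_eq_add]
  rfl

theorem hasFDerivAt_nsq (Z : HC N) :
    HasFDerivAt (nsq : HC N → ℝ) ((2 : ℝ) • Complex.reCLM.comp (lam Z)) Z := by
  have h := HasFDerivAt.fun_sum (u := Finset.univ) fun (k : Fin (N + 1)) _ =>
    (hasFDerivAt_normSq (Z k)).comp Z (pj k).hasFDerivAt
  have e : (nsq : HC N → ℝ) = fun y => ∑ k, ((fun z : ℂ => Complex.normSq z) ∘ pj k) y :=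
    funext fun y => Finset.sum_congr rfl fun k _ => (Complex.normSq_eq_norm_sq _).symm
  rw [e]
  refine h.congr_fderiv (ContinuousLinearMap.ext fun v => ?_)
  simp [lam_apply, Finset.mul_sum, mul_add, mul_assoc]

/-- the connection form on `ℂ^{N+1} ∖ 0` -/
def cn0 (Z : HC N) : Ext (HC N) := ((2 * Real.pi)⁻¹ * (nsq Z)⁻¹) • eta Z

theorem contDiffAt_cn0 {Z : HC N} (hZ : Z ≠ 0) : ContDiffAt ℝ ∞ cn0 Z :=
  (contDiffAt_const.mul ((contDiffAt_nsq fun k => (pj k).contDiff.contDiffAt).inv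
    (nsq_pos hZ).ne')).smul contDiff_eta.contDiffAt

theorem herm_hz {Z : HC N} (hZ : Z ≠ 0) :
    herm (hz Z pj) = herm (pj (N := N)) - (nsq Z)⁻¹ • sq (lam Z) := by
  have h0 : (nsq Z : ℂ) ≠ 0 := by exact_mod_cast (nsq_pos hZ).ne'
  rw [eq_sub_iff_add_eq]
  refine ext_deg ((isDeg_herm _).add ((isDeg_sq _).smul _)) (isDeg_herm _) fun v => ?_
  rw [map_add, map_smul, AlternatingMap.add_apply, AlternatingMap.smul_apply, evA_herm, evA_herm,
    evA_sq, smul_eq_mul, ← Complex.im_ofReal_mul, ← Complex.add_im]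
  congr 1
  have h1 : ∀ k, conj (hz Z pj k (v 0)) * hz Z pj k (v 1) = conj (v 0 k) * v 1 k
      - (nsq Z : ℂ)⁻¹ * lam Z (v 1) * conj (conj (Z k) * v 0 k)
      - (nsq Z : ℂ)⁻¹ * conj (lam Z (v 0)) * (conj (Z k) * hz Z pj k (v 1)) := fun k => by
    simp only [hz_apply, pj_apply, ← lam_apply, map_sub, map_mul, map_div₀, Complex.conj_ofReal,
      Complex.conj_conj]
    ring
  simp only [h1, Finset.sum_sub_distrib, ← Finset.mul_sum, ← map_sum, ← lam_apply, sum_hz hZ,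
    pj_apply]
  push_cast
  ring

theorem d_cn0 {Z : HC N} (hZ : Z ≠ 0) :
    d cn0 Z = (Real.pi⁻¹ * (nsq Z)⁻¹) • herm (hz Z pj) := by
  have h0 := (nsq_pos hZ).ne'
  have hg := ((hasDerivAt_inv h0).comp_hasFDerivAt Z (hasFDerivAt_nsq Z)).const_mul (2 * Real.pi)⁻¹
  have e : (((2 * Real.pi)⁻¹ • (-(nsq Z ^ 2)⁻¹) • (2 : ℝ) • Complex.reCLM.comp (lam Z) :
      HC N →L[ℝ] ℝ) : Dual ℝ (HC N)) = (-(Real.pi⁻¹ * (nsq Z ^ 2)⁻¹)) • reD (lam Z) := by
    refine LinearMap.ext fun v => ?_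
    simp
    ring
  unfold cn0
  rw [d_smul (g := fun Z : HC N => (2 * Real.pi)⁻¹ * (nsq Z)⁻¹) hg.differentiableAt
    (contDiff_eta.differentiable (by simp) Z), d_eta, eta_eq, herm_hz hZ,
    show fderiv ℝ (fun Z : HC N => (2 * Real.pi)⁻¹ * (nsq Z)⁻¹) Z = _ from hg.fderiv, e, map_smul,
    smul_mul_assoc, ← Man.sq, smul_sub, smul_smul, smul_smul, neg_smul, neg_add_eq_sub]
  congr 2
  · ring
  · ring

/-- the connection form of a family of functions without common zero -/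
def cn (Z : V → HC N) : V → Ext V := pull Z cn0

variable {Z : V → HC N} {x : V}

theorem cn_eq (Z : V → HC N) (x : V) : cn Z x =
    (2 * Real.pi)⁻¹ • io (imc (nsq (Z x) : ℂ)⁻¹ ((lam (Z x)).comp (fderiv ℝ Z x))) := by
  rw [cn, pull, cn0, map_smul, eta_eq, pb_io, mul_smul, ← map_smul]
  congr 2
  refine LinearMap.ext fun v => ?_
  rw [imc_apply, ← Complex.ofReal_inv, Complex.im_ofReal_mul]
  rfl

theorem isDeg_io (l : Dual ℝ V) : IsDeg 1 (io l) := by
  simpa [ExteriorAlgebra.ιMulti_apply] using IsDeg.iMulti (E := V) ![l]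

theorem hom_cn (Z : V → HC N) : Hom 1 (cn Z) := fun x => by
  rw [cn_eq]; exact (isDeg_io _).smul _

theorem hom_ang (f : V → ℂ) : Hom 1 (ang f) := fun x => by
  rw [ang_eq]; exact (isDeg_io _).smul _

theorem inv_of_one {c : Ext V} (h : IsDeg 1 c) : inv c = - c := by
  refine ext_evA fun q => ?_
  rw [evA_inv, map_neg]
  by_cases hq : q = 1
  · subst hq; ext v; simp
  · rw [h q hq]; simp

theorem contDiffAt_cn (hZ : ContDiffAt ℝ ∞ Z x) (h0 : Z x ≠ 0) : ContDiffAt ℝ ∞ (cn Z) x :=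
  contDiffAt_pull hZ (le_refl _) (contDiffAt_cn0 h0)

theorem cn_smul {h : V → ℂ} (hh : DifferentiableAt ℝ h x) (hZ : DifferentiableAt ℝ Z x)
    (h0 : h x ≠ 0) (h1 : Z x ≠ 0) : cn (fun y => h y • Z y) x = ang h x + cn Z x := by
  have h2 : (nsq (Z x) : ℂ) ≠ 0 := by exact_mod_cast (nsq_pos h1).ne'
  have h3 : conj (h x) ≠ 0 := (map_ne_zero _).2 h0
  have h4 : ((‖h x‖ ^ 2 : ℝ) : ℂ) = h x * conj (h x) := by rw [Complex.mul_conj']; norm_cast
  have h5 : lam (Z x) (Z x) = nsq (Z x) := by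
    rw [lam_apply, nsq_eq]; exact Finset.sum_congr rfl fun k _ => mul_comm _ _
  have h6 : ∀ w, lam (h x • Z x) w = conj (h x) * lam (Z x) w := fun w => by
    simp [lam_apply, Finset.mul_sum, mul_assoc]
  have h7 : ∀ (c : ℂ) w, lam (Z x) (c • w) = c * lam (Z x) w := fun c w => by
    simp [lam_apply, Finset.mul_sum, mul_left_comm]
  rw [cn_eq, cn_eq, ang_eq, ← smul_add, ← map_add, (hh.hasFDerivAt.fun_smul hZ.hasFDerivAt).fderiv]
  congr 2
  refine LinearMap.ext fun v => ?_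
  simp only [imc_apply, LinearMap.add_apply, ← Complex.add_im, ContinuousLinearMap.comp_apply,
    _root_.add_apply, _root_.smul_apply, ContinuousLinearMap.smulRight_apply, h6, map_add, h7, h5,
    nsq_smul, Complex.ofReal_mul, h4]
  congr 1
  field_simp
  ring

theorem d_cn (hZ : ContDiffAt ℝ 2 Z x) (h0 : Z x ≠ 0) : d (cn Z) x =
    (Real.pi⁻¹ * (nsq (Z x))⁻¹) • herm (hz (Z x) fun k => (pj k).comp (fderiv ℝ Z x)) := by
  rw [cn, d_pull hZ ((contDiffAt_cn0 h0).differentiableAt (by simp)), pull, d_cn0 h0, map_smul,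
    pb_herm]
  congr 2
  funext k
  refine ContinuousLinearMap.ext fun v => ?_
  rw [ContinuousLinearMap.comp_apply, hz_apply, hz_apply]
  rfl

/-- the Fubini-Study form, of integral one on a line -/
def fs (N : ℕ) (q : Hm N) : Ext (Hm N) := (2 * Real.pi)⁻¹ • (sf 1 toM q).im

theorem sm_toM (q : Hm N) : SM ∞ toM q := fun a b => (contDiff_entry (a, b)).contDiffAt

theorem contDiff_fs : ContDiff ℝ ∞ (fs N) := contDiff_iff_contDiffAt.2 fun q =>
  (CD_sf (sm_toM q) (le_refl _) 1).im.const_smul _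

theorem hom_fs : Hom 2 (fs N) := fun q => (degC_sf 1 toM q).2.smul _

theorem pull_fs' {Φ : V → Hm N} (hΦ : ContDiffAt ℝ 2 Φ x) :
    pull Φ (fs N) x = (2 * Real.pi)⁻¹ • (sf 1 (fun y => toM (Φ y)) x).im := by
  rw [← pullC_sf hΦ ((sm_toM _).of_le (by exact_mod_cast le_top))]
  exact map_smul (pb _) _ _

theorem contDiffAt_ofM (hZ : ContDiffAt ℝ ∞ Z x) (h0 : Z x ≠ 0) :
    ContDiffAt ℝ ∞ (fun y => ofM (pm (Z y))) x :=
  (contDiffAt_piLp 2).2 fun p => contDiffAt_pm (contDiffAt_pi.1 hZ) h0 p.1 p.2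

theorem sf_cn (hZ : ContDiffAt ℝ 2 Z x) (h0 : Z x ≠ 0) :
    sf 1 (fun y => pm (Z y)) x = ⟨0, (2 * Real.pi) • d (cn Z) x⟩ := by
  rw [d_cn hZ h0, sf_pm (Z := Z) (fun k => (pj k).hasFDerivAt.comp x
    (hZ.differentiableAt (by simp)).hasFDerivAt) h0, smul_smul]
  congr 2
  have := Real.pi_ne_zero
  field_simp

/-- the curvature of the tautological connection is the Fubini-Study form -/
theorem pull_fs (hZ : ContDiffAt ℝ ∞ Z x) (h0 : Z x ≠ 0) :
    pull (fun y => ofM (pm (Z y))) (fs N) x = d (cn Z) x := by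
  rw [pull_fs' ((contDiffAt_ofM hZ h0).of_le two_le)]
  simp only [toM_ofM]
  rw [sf_cn (hZ.of_le two_le) h0, smul_smul, inv_mul_cancel₀ Real.two_pi_pos.ne', one_smul]

/-! ### gluing -/

variable {n : ℕ} {M : Type} [TopologicalSpace M] [CompactSpace M] {A : Atl n M} {E G : Type}
  [NormedAddCommGroup E] [NormedSpace ℝ E] [FiniteDimensional ℝ E] [NormedAddCommGroup G]
  [NormedSpace ℝ G] (ε : Emb A E)

theorem glue {U : Set M} (hU : IsOpen U) {t : M → Set G} (ht : ∀ x ∈ U, Convex ℝ (t x))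
    (h : ∀ x ∈ U, ∃ g : E → G, ∀ᶠ y in 𝓝 x, ContDiffAt ℝ ∞ g (ε.j y) ∧ g (ε.j y) ∈ t y) :
    ∃ g : E → G, ∀ x ∈ U, ContDiffAt ℝ ∞ g (ε.j x) ∧ g (ε.j x) ∈ t x := by
  obtain ⟨g, h1, h2⟩ := exists_of_local (G := G) ε.isClosed_X (ε.isOpen_op hU)
    (t := fun q => {b | ∀ x, ε.j x = q → b ∈ t x})
    (by
      rintro _ ⟨⟨x, rfl⟩, hx⟩ a ha b hb r s hr hs hrs y hy
      exact ht y (ε.mem_op.1 (hy ▸ hx)) (ha y hy) (hb y hy) hr hs hrs)
    (by
      rintro _ ⟨⟨x, rfl⟩, hx⟩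
      obtain ⟨g, hg⟩ := h x (ε.mem_op.1 hx)
      obtain ⟨W, h1, h2, h3⟩ := eventually_nhds_iff.1 hg
      obtain ⟨g', h4, h5⟩ := ε.exists_ext_on h2 (ε.smOn_comp fun y hy => (h1 y hy).1)
      refine ⟨_, (ε.isOpen_op h2).mem_nhds (ε.mem_op.2 h3), g',
        fun q hq => (h4 q hq).contDiffWithinAt, ?_⟩
      rintro q hq - y rfl
      rw [h5 y (ε.mem_op.1 hq)]
      exact (h1 y (ε.mem_op.1 hq)).2)
  exact ⟨g, fun x hx => ⟨h1 _ (ε.mem_op.2 hx), h2 _ ⟨ε.mem x, ε.mem_op.2 hx⟩ x rfl⟩⟩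

theorem res_d_congr {a b : E → Ext E} {x : M} (ha : DifferentiableAt ℝ a (ε.j x))
    (hb : DifferentiableAt ℝ b (ε.j x))
    (h : ∀ᶠ y in 𝓝 x, res ε.X (ε.j y) (a (ε.j y)) = res ε.X (ε.j y) (b (ε.j y))) :
    res ε.X (ε.j x) (d a (ε.j x)) = res ε.X (ε.j x) (d b (ε.j x)) := by
  have h1 := res_d_zero ε.sub (ε.mem x) (ha.fun_sub hb)
    ((eventually_X ε).2 (h.mono fun y hy => by rw [map_sub, hy, sub_self]))
  rwa [d_sub ha hb, map_sub, sub_eq_zero] at h1

end Crest.Agent.X262.PL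
end
end

-- ▼ part X262/PL/C1

/-!
# Row 262, PL (helper92), part C1: the first Chern class

* `fa P f` : an ambient function which induces the rational function `f`; `ag x f`;
* `Cn P a g α c` : local connection forms `α x` for the generators `g x` of `a`, curvature `c`;
  `Crv P a c` : `c` is the curvature of a connection on `O(a)`;
* `c1P P a`, `Crv.c1_eq`, `exists_crv`, `crv_mxf`, `crv_oP`, `c1P_oP`, `c1P_mem`;
* `c1 X a`, `c1Ax : C1Ax c1`.
-/

set_option autoImplicit false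
set_option linter.unusedSectionVars false

open Set Filter Topology Module
open scoped ContDiff
open Crest.Agent.R208.F Crest.Agent.R208.FI Crest.Agent.R208.CW Crest.Agent.R208.T
open Crest.Agent.R257.PN_835 (HC nsq pm pm_smul)
open Crest.Agent.X277 Crest.Agent.X277.Lef Crest.Agent.X277.AN.G1 Crest.Agent.X277.BD
  Crest.Agent.X277.BD.Br
open Crest.Agent.X262.Man

noncomputable section

namespace Crest.Agent.X262.PL

variable {F K : Type} [Field F] [Algebra ℂ F] [Field K] [Algebra ℂ K] {P : PModel ℂ F}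
  {P' : PModel ℂ K} {x : Pts P} {f f' : F}

/-- an ambient function which induces the rational function `f` where it is regular -/
def fa (P : PModel ℂ F) (f : F) : Hm P.N → ℂ :=
  ((em P).exists_ext_on (isOpen_reg f) (smOn_ev (an P) f)).choose

theorem fa_sm (hf : f ∈ (lp x).O) : ContDiffAt ℝ ∞ (fa P f) (jP P x) :=
  ((em P).exists_ext_on (isOpen_reg f) (smOn_ev (an P) f)).choose_spec.1 _ ((em P).mem_op.2 hf)

theorem fa_j (hf : f ∈ (lp x).O) : fa P f (jP P x) = ev f x :=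
  ((em P).exists_ext_on (isOpen_reg f) (smOn_ev (an P) f)).choose_spec.2 x hf

theorem fa_diff (hf : f ∈ (lp x).O) : DifferentiableAt ℝ (fa P f) (jP P x) :=
  (fa_sm hf).differentiableAt (by simp)

theorem ev_XP {p : Hm P.N → Prop} :
    (∀ᶠ q in 𝓝[XP P] (jP P x), p q) ↔ ∀ᶠ y in 𝓝 x, p (jP P y) := eventually_X (em P)

theorem ang_fa_sm (hf : ev f x ≠ 0) : ContDiffAt ℝ ∞ (ang (fa P f)) (jP P x) :=
  contDiffAt_ang (fa_sm (LP.mem_of_ne hf)) (le_refl _) (by rwa [fa_j (LP.mem_of_ne hf)])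

theorem d_ang_fa (hf : ev f x ≠ 0) : d (ang (fa P f)) (jP P x) = 0 :=
  d_ang ((fa_sm (LP.mem_of_ne hf)).of_le two_le) (by rwa [fa_j (LP.mem_of_ne hf)])

/-- restriction to the tangent space at a point -/
abbrev rP (x : Pts P) : Ext (Hm P.N) →ₐ[ℝ] Ext (Tan (XP P) (jP P x)) := res (XP P) (jP P x)

/-- `d arg f / 2 π` at a point -/
def ag (x : Pts P) (f : F) : Ext (Tan (XP P) (jP P x)) := rP x (ang (fa P f) (jP P x))

theorem ag_eq (hf : f ∈ (lp x).O) {z : Hm P.N → ℂ} (hz : DifferentiableAt ℝ z (jP P x))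
    (h : ∀ᶠ y in 𝓝 x, z (jP P y) = ev f y) : rP x (ang z (jP P x)) = ag x f := by
  refine res_pull_congr _ (jP_mem x) hz (fa_diff hf) (ev_XP.2 ?_)
  filter_upwards [h, eventually_mem hf] with y h1 h2
  rw [h1, fa_j h2]

theorem ag_mul (hf : ev f x ≠ 0) (hf' : ev f' x ≠ 0) : ag x (f * f') = ag x f + ag x f' := by
  have h1 := LP.mem_of_ne hf
  have h2 := LP.mem_of_ne hf'
  rw [ag, ag, ag, ← map_add, ← ang_mul (fa_diff h1) (fa_diff h2) (by rwa [fa_j h1])
    (by rwa [fa_j h2])]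
  refine (ag_eq (mul_mem h1 h2) ((fa_diff h1).fun_mul (fa_diff h2)) ?_).symm
  filter_upwards [eventually_mem h1, eventually_mem h2] with y k1 k2
  rw [fa_j k1, fa_j k2, ev, ev, ev, LP.v_mul _ k1 k2]

theorem ag_one : ag x (1 : F) = 0 := by
  have h : ev (1 : F) x ≠ 0 := by simp
  simpa using ag_mul h h

theorem ag_inv (hf : ev f x ≠ 0) : ag x f⁻¹ = - ag x f := by
  have h := ag_mul hf (f' := f⁻¹) (by rw [ev, LP.v_inv hf]; exact inv_ne_zero hf)
  rw [mul_inv_cancel₀ (LP.ne_zero_of_ne hf), ag_one] at h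
  exact (neg_eq_of_add_eq_zero_right h.symm).symm

variable {a a' : BD ℂ F} {g g' : Pts P → F} {α α' : Pts P → Hm P.N → Ext (Hm P.N)}
  {c c' : Hm P.N → Ext (Hm P.N)}

theorem ag_tr {g₁ g₂ g₃ : F} (h1 : At a x g₁) (h2 : At a x g₂) (h3 : At a x g₃) :
    ag x (g₁ / g₃) = ag x (g₁ / g₂) + ag x (g₂ / g₃) := by
  rw [← ag_mul (h1.ev_div_ne h2) (h2.ev_div_ne h3), div_mul_div_cancel₀ h2.ne]

theorem ag_pull (μ : Mor P' P) {y : Pts P'} (hf : f ∈ (lp (μ.map y)).O) :
    rP y (pull (ambM μ) (ang (fa P f)) (jP P' y)) = ag y (μ.p.π f) := by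
  have h1 := (contDiff_ambM μ).differentiable (by simp) (jP P' y)
  have h2 : DifferentiableAt ℝ (fa P f) (ambM μ (jP P' y)) := by rw [ambM_j]; exact fa_diff hf
  rw [ang_comp h1 h2]
  refine ag_eq (μ.π_mem hf) (h2.comp _ h1) ?_
  filter_upwards [μ.continuous.continuousAt.eventually (eventually_mem hf)] with z hz
  rw [ambM_j, fa_j hz, μ.ev_map hz]

theorem rP_pull (μ : Mor P' P) {y : Pts P'} {v w : Hm P.N → Ext (Hm P.N)}
    (h : rP (μ.map y) (v (jP P (μ.map y))) = rP (μ.map y) (w (jP P (μ.map y)))) :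
    rP y (pull (ambM μ) v (jP P' y)) = rP y (pull (ambM μ) w (jP P' y)) :=
  res_pull ((contDiff_ambM μ).differentiable (by simp) _) (smapM μ).maps (by rwa [ambM_j])

/-! ### connections -/

/-- local connection forms `α x` for the generators `g x` of `a`, with curvature `c` -/
structure Cn (P : PModel ℂ F) (a : BD ℂ F) (g : Pts P → F) (α : Pts P → Hm P.N → Ext (Hm P.N))
    (c : Hm P.N → Ext (Hm P.N)) : Prop where
  sm : Sm (XP P) c
  deg : Hom 2 c
  gen : ∀ x, At a x (g x)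
  one : ∀ x, Hom 1 (α x)
  loc : ∀ x, ∀ᶠ y in 𝓝 x, ContDiffAt ℝ ∞ (α x) (jP P y) ∧
    rP y (d (α x) (jP P y) + c (jP P y)) = 0 ∧
    rP y (α x (jP P y)) = rP y (α y (jP P y)) + ag y (g x / g y)

/-- `c` is the curvature of a connection on `O(a)` -/
def Crv (P : PModel ℂ F) (a : BD ℂ F) (c : Hm P.N → Ext (Hm P.N)) : Prop := ∃ g α, Cn P a g α c

/-- the connection form in the trivialisation `u` -/
def om (g : Pts P → F) (α : Pts P → Hm P.N → Ext (Hm P.N)) (y : Pts P) (u : F) :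
    Ext (Tan (XP P) (jP P y)) := rP y (α y (jP P y)) + ag y (u / g y)

namespace Cn

variable (h : Cn P a g α c)
include h

theorem om_chg {u u' : F} (hu : At a x u) (hu' : At a x u') :
    om g α x u' = om g α x u + ag x (u' / u) := by
  rw [om, om, ag_tr hu' hu (h.gen x), add_comm (ag x _), add_assoc]

theorem loc' {u : F} (hu : At a x u) : ∃ β : Hm P.N → Ext (Hm P.N), Hom 1 β ∧ ∀ᶠ y in 𝓝 x,
    At a y u ∧ ContDiffAt ℝ ∞ β (jP P y) ∧ rP y (d β (jP P y) + c (jP P y)) = 0 ∧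
      rP y (β (jP P y)) = om g α y u := by
  refine ⟨fun q => α x q + ang (fa P (u / g x)) q, (h.one x).add (hom_ang _), ?_⟩
  filter_upwards [h.loc x, hu.eventually, (h.gen x).eventually] with y h1 h2 h3
  have h4 := ang_fa_sm (h2.ev_div_ne h3)
  refine ⟨h2, h1.1.add h4, ?_, ?_⟩
  · rw [d_add (h1.1.differentiableAt (by simp)) (h4.differentiableAt (by simp)),
      d_ang_fa (h2.ev_div_ne h3), add_zero, h1.2.1]
  · rw [map_add, h1.2.2, om, ag_tr h2 h3 (h.gen y), add_assoc, add_comm (ag y (g x / g y))]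
    rfl

theorem ec : EC (XP P) c := by
  refine EC.of_hom (j := 1) h.sm ?_ h.deg
  rintro _ ⟨x, rfl⟩
  have h1 := (h.loc x).self_of_nhds.1
  have h2 : DifferentiableAt ℝ (d (α x)) (jP P x) :=
    (contDiffAt_d (m := 1) (h1.of_le two_le) (by norm_num)).differentiableAt (by simp)
  have h3 := h.sm.diff (jP_mem x)
  have h4 := res_d_zero (subP P) (jP_mem x) (h2.fun_add h3)
    (ev_XP.2 ((h.loc x).mono fun y hy => hy.2.1))
  rwa [d_add h2 h3, d_d (h1.of_le two_le), zero_add] at h4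

theorem coh (h' : Cn P a g' α' c') : Coh (XP P) c c' := by
  have key : ∀ x, ∃ β β' : Hm P.N → Ext (Hm P.N), ∀ᶠ y in 𝓝 x, ContDiffAt ℝ ∞ β (jP P y) ∧
      ContDiffAt ℝ ∞ β' (jP P y) ∧ rP y (d β (jP P y) + c (jP P y)) = 0 ∧
      rP y (d β' (jP P y) + c' (jP P y)) = 0 ∧
      rP y (β' (jP P y) - β (jP P y)) = om g' α' y (g y) - om g α y (g y) := fun x => by
    obtain ⟨β, -, h1⟩ := h.loc' (h.gen x)
    obtain ⟨β', -, h2⟩ := h'.loc' (h.gen x)
    refine ⟨β, β', ?_⟩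
    filter_upwards [h1, h2] with y k1 k2
    refine ⟨k1.2.1, k2.2.1, k1.2.2.1, k2.2.2.1, ?_⟩
    rw [map_sub, k1.2.2.2, k2.2.2.2, h.om_chg (h.gen y) k1.1, h'.om_chg (h.gen y) k1.1,
      add_sub_add_right_eq_sub]
  obtain ⟨ξ, hξ⟩ := glue (em P) isOpen_univ
    (t := fun y => (rP y).toLinearMap ⁻¹' {om g' α' y (g y) - om g α y (g y)})
    (fun y _ => (convex_singleton _).linear_preimage _) fun x _ => by
      obtain ⟨β, β', h1⟩ := key x
      exact ⟨fun q => β' q - β q, h1.mono fun y hy => ⟨hy.2.1.sub hy.1, hy.2.2.2.2⟩⟩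
  refine ⟨ξ, (em P).forall_X.2 fun x => (hξ x trivial).1, eqv_iff.2 ?_⟩
  rintro _ ⟨x, rfl⟩
  obtain ⟨β, β', h1⟩ := key x
  obtain ⟨k1, k2, k3, k4, -⟩ := h1.self_of_nhds
  replace k1 := k1.differentiableAt (by simp)
  replace k2 := k2.differentiableAt (by simp)
  have h2 := res_d_congr (em P) ((hξ x trivial).1.differentiableAt (by simp)) (k2.fun_sub k1)
    (h1.mono fun y hy => Eq.trans (hξ y trivial).2 hy.2.2.2.2.symm)
  rw [map_add, add_eq_zero_iff_eq_neg] at k3 k4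
  refine Eq.trans ?_ h2.symm
  change rP x (c (jP P x) - c' (jP P x)) = rP x (d (fun q => β' q - β q) (jP P x))
  rw [d_sub k2 k1, map_sub, map_sub, k3, k4, neg_sub_neg]

theorem add (h' : Cn P a' g' α' c') : Cn P (a + a') (fun x => g x * g' x)
    (fun x q => α x q + α' x q) (c + c') := by
  refine ⟨h.sm.add h'.sm, h.deg.add h'.deg, fun x => (h.gen x).add (h'.gen x),
    fun x => (h.one x).add (h'.one x), fun x => ?_⟩
  filter_upwards [h.loc x, h'.loc x, (h.gen x).eventually, (h'.gen x).eventually]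
    with y h1 h2 h3 h4
  refine ⟨h1.1.add h2.1, ?_, ?_⟩
  · rw [d_add (h1.1.differentiableAt (by simp)) (h2.1.differentiableAt (by simp)), Pi.add_apply,
      add_add_add_comm, map_add, h1.2.1, h2.2.1, add_zero]
  · rw [map_add, map_add, h1.2.2, h2.2.2, ← div_mul_div_comm,
      ag_mul (h3.ev_div_ne (h.gen y)) (h4.ev_div_ne (h'.gen y)), add_add_add_comm]

theorem neg : Cn P (-a) (fun x => (g x)⁻¹) (fun x q => - α x q) (-c) := by
  refine ⟨h.sm.neg, h.deg.neg, fun x => (h.gen x).neg, fun x => (h.one x).neg, fun x => ?_⟩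
  filter_upwards [h.loc x, (h.gen x).eventually] with y h1 h3
  refine ⟨h1.1.neg, ?_, ?_⟩
  · rw [d_neg, Pi.neg_apply, ← neg_add, map_neg, h1.2.1, neg_zero]
  · rw [map_neg, map_neg, h1.2.2, ← inv_div', ag_inv (h3.ev_div_ne (h.gen y)), neg_add]

theorem pull (μ : Mor P' P) {b : BD ℂ K} {u : F}
    (hb : ∀ (y : Pts P') (f : F), At a (μ.map y) f → At b y (μ.p.π (f / u))) :
    Cn P' b (fun y => μ.p.π (g (μ.map y) / u)) (fun y => pull (ambM μ) (α (μ.map y)))
      (pull (ambM μ) c) := by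
  refine ⟨h.sm.pull (smapM μ), h.deg.pull, fun x => hb x _ (h.gen _), fun x => (h.one _).pull,
    fun x => ?_⟩
  filter_upwards [μ.continuous.continuousAt.eventually (h.loc (μ.map x)),
    μ.continuous.continuousAt.eventually (h.gen (μ.map x)).eventually] with y h1 h2
  have h3 : ContDiffAt ℝ ∞ (α (μ.map x)) (ambM μ (jP P' y)) := by rw [ambM_j]; exact h1.1
  have h4 := (hb y _ (h.gen _)).ne
  have h5 := (hb y _ h2).ne
  have h6 : u ≠ 0 := fun h0 => h4 (by rw [h0, div_zero, Plc.π_zero])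
  refine ⟨contDiffAt_pull (contDiff_ambM μ).contDiffAt (le_refl _) h3, ?_, ?_⟩
  · rw [d_pull ((contDiff_ambM μ).contDiffAt.of_le two_le) (h3.differentiableAt (by simp)),
      ← pull_add]
    refine (rP_pull μ (w := fun _ => 0) (h1.2.1.trans (map_zero _).symm)).trans ?_
    rw [R208.F.pull, map_zero, map_zero]
  · rw [← Plc.π_div (Plc.mem_of_ne h5) h4, div_div_div_cancel_right₀ h6,
      ← ag_pull μ (LP.mem_of_ne (h2.ev_div_ne (h.gen _))), ← map_add, ← pull_add]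
    exact rP_pull μ (h1.2.2.trans (map_add _ _ _).symm)

end Cn

theorem cn_pr (hf : f ≠ 0) : Cn P (pr ℂ f) (fun _ => f) (fun _ => 0) 0 :=
  ⟨Sm.zero, Hom.zero, fun x => at_pr x hf, fun _ => Hom.zero, fun _ =>
    Eventually.of_forall fun y => ⟨contDiffAt_const, by rw [d_zero']; simp,
      by rw [div_self hf, ag_one, add_zero]⟩⟩

theorem Crv.ec (h : Crv P a c) : EC (XP P) c := h.choose_spec.choose_spec.ec

theorem Crv.deg (h : Crv P a c) : Hom 2 c := h.choose_spec.choose_spec.deg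


theorem Crv.add (h : Crv P a c) (h' : Crv P a' c') : Crv P (a + a') (c + c') :=
  ⟨_, _, h.choose_spec.choose_spec.add h'.choose_spec.choose_spec⟩

theorem Crv.neg (h : Crv P a c) : Crv P (-a) (-c) := ⟨_, _, h.choose_spec.choose_spec.neg⟩

theorem Crv.pull (h : Crv P a c) (μ : Mor P' P) {b : BD ℂ K} {u : F}
    (hb : ∀ (y : Pts P') (f : F), At a (μ.map y) f → At b y (μ.p.π (f / u))) :
    Crv P' b (pull (ambM μ) c) := ⟨_, _, h.choose_spec.choose_spec.pull μ hb⟩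

theorem crv_pr (f : F) : Crv P (pr ℂ f) 0 := by
  by_cases hf : f = 0
  · rw [hf, pr_zero, ← pr_one]
    exact ⟨_, _, cn_pr one_ne_zero⟩
  · exact ⟨_, _, cn_pr hf⟩

/-! ### free divisors -/

variable {r : ℕ} {s : Fin (r + 1) → F}

/-- the ambient functions of the family `s / u` -/
def fv (P : PModel ℂ F) (s : Fin (r + 1) → F) (u : F) (q : Hm P.N) : HC r :=
  fun k => fa P (s k / u) q

theorem fv_sm {u : F} (hu : At (mxf ℂ s) x u) : ContDiffAt ℝ ∞ (fv P s u) (jP P x) :=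
  contDiffAt_pi.2 fun k => fa_sm (hu.div_mem (mem_Sec_mxf s k))

theorem fv_j {u : F} (hu : At (mxf ℂ s) x u) : fv P s u (jP P x) = fun k => ev (s k / u) x :=
  funext fun k => fa_j (hu.div_mem (mem_Sec_mxf s k))

theorem fv_ne (hs : Cns.Gn P s) {u : F} (hu : At (mxf ℂ s) x u) : fv P s u (jP P x) ≠ 0 := by
  obtain ⟨j, h1, h2⟩ := hs x
  rw [fv_j hu]
  exact Function.ne_iff.2 ⟨j, (at_mxf h1 h2).ev_div_ne hu⟩

theorem fv_chg {u u' : F} (hu : At (mxf ℂ s) x u) (hu' : At (mxf ℂ s) x u') :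
    fv P s u (jP P x) = fa P (u' / u) (jP P x) • fv P s u' (jP P x) := by
  have h1 := LP.mem_of_ne (hu'.ev_div_ne hu)
  rw [fv_j hu, fv_j hu', fa_j h1]
  funext k
  rw [Pi.smul_apply, smul_eq_mul, ev, ev, ev, ← LP.v_mul _ h1 (hu'.div_mem (mem_Sec_mxf s k)),
    mul_comm, div_mul_div_cancel₀ hu'.ne]

/-- `Φ` induces the map to projective space given by `s` -/
def IsPhi (P : PModel ℂ F) (s : Fin (r + 1) → F) (Φ : Hm P.N → Hm r) : Prop :=
  ∀ x, ContDiffAt ℝ ∞ Φ (jP P x) ∧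
    ∀ u, At (mxf ℂ s) x u → Φ (jP P x) = ofM (pm fun k => ev (s k / u) x)

theorem exists_phi (hs : Cns.Gn P s) : ∃ Φ, IsPhi P s Φ := by
  obtain ⟨Φ, h⟩ := glue (em P) isOpen_univ
    (t := fun x => {b | ∀ u, At (mxf ℂ s) x u → b = ofM (pm fun k => ev (s k / u) x)})
    (fun x _ => Set.Subsingleton.convex fun b hb b' hb' => by
      obtain ⟨u, hu⟩ := mxf_mem hs x
      rw [hb u hu, hb' u hu])
    fun x _ => by
      obtain ⟨u, hu⟩ := mxf_mem hs x
      refine ⟨fun q => ofM (pm (fv P s u q)), hu.eventually.mono fun y hy =>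
        ⟨contDiffAt_ofM (fv_sm hy) (fv_ne hs hy), fun u' hu' => ?_⟩⟩
      have h1 := hu'.ev_div_ne hy
      change ofM (pm (fv P s u (jP P y))) = _
      rw [← fv_j hu', fv_chg hy hu', pm_smul (by rwa [fa_j (LP.mem_of_ne h1)])]
  exact ⟨Φ, fun x => h x trivial⟩

theorem isPhi_y : IsPhi P P.y fun q => q := fun x => ⟨contDiffAt_id, fun u hu => by
  obtain ⟨i, hi⟩ := exists_pat x
  have h1 := (at_y hi).ev_div_ne hu
  rw [jP_eq hi, ← fv_j hu, ← fv_j (at_y hi), fv_chg hu (at_y hi),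
    pm_smul (by rwa [fa_j (LP.mem_of_ne h1)])]⟩

theorem IsPhi.res_fs (hs : Cns.Gn P s) {Φ : Hm P.N → Hm r} (hΦ : IsPhi P s Φ) {u : F}
    (hu : At (mxf ℂ s) x u) :
    rP x (pull Φ (fs r) (jP P x)) = rP x (d (cn (fv P s u)) (jP P x)) := by
  rw [← pull_fs (fv_sm hu) (fv_ne hs hu)]
  refine res_pull_congr _ (jP_mem x) ((hΦ x).1.differentiableAt (by simp))
    ((contDiffAt_ofM (fv_sm hu) (fv_ne hs hu)).differentiableAt (by simp)) (ev_XP.2 ?_)
  filter_upwards [hu.eventually] with y hy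
  rw [(hΦ y).2 u hy, fv_j hy]

/-- the curvature of a free divisor is the pull-back of the Fubini-Study form -/
theorem crv_mxf (hs : Cns.Gn P s) {Φ : Hm P.N → Hm r} (hΦ : IsPhi P s Φ) :
    Crv P (mxf ℂ s) (pull Φ (fs r)) := by
  choose g hg using mxf_mem hs
  refine ⟨g, fun x q => - cn (fv P s (g x)) q, (em P).forall_X.2 fun x =>
    contDiffAt_pull (hΦ x).1 (le_refl _) contDiff_fs.contDiffAt, hom_fs.pull, hg,
    fun x => (hom_cn _).neg, fun x => (hg x).eventually.mono fun y hy =>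
      ⟨(contDiffAt_cn (fv_sm hy) (fv_ne hs hy)).neg, ?_, ?_⟩⟩
  · rw [d_neg, map_add, hΦ.res_fs hs hy, map_neg, neg_add_cancel]
  · have h1 := hy.ev_div_ne (hg y)
    have h2 := LP.mem_of_ne h1
    have h3 := (fv_sm hy).differentiableAt (by simp)
    rw [map_neg, map_neg, ag, eq_neg_add_iff_add_eq, add_neg_eq_iff_eq_add, ← map_add,
      ← cn_smul (fa_diff h2) h3 (by rwa [fa_j h2]) (fv_ne hs hy)]
    refine res_pull_congr _ (jP_mem y) ((fv_sm (hg y)).differentiableAt (by simp))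
      ((fa_diff h2).fun_smul h3) (ev_XP.2 ?_)
    filter_upwards [hy.eventually, (hg y).eventually] with z k1 k2
    exact fv_chg k2 k1

theorem crv_oP : Crv P (oP P) (fs P.N) := by
  have h := crv_mxf Cns.gn_y (isPhi_y (P := P))
  rwa [show pull (fun q => q) (fs P.N) = fs P.N from funext (pull_id _)] at h

theorem ec_fs : EC (XP P) (fs P.N) := crv_oP.ec

theorem exists_crv (ha : a ∈ On P) : ∃ c, Crv P a c := by
  obtain ⟨b, hb, N, hf, rfl⟩ := exists_sub_On ha
  obtain ⟨r, s, -, hs, rfl⟩ := exists_gn hb hf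
  obtain ⟨Φ, hΦ⟩ := exists_phi hs
  have h : ∀ N : ℕ, ∃ c, Crv P (N • oP P) c := fun N => by
    induction N with
    | zero => exact ⟨_, by rw [zero_smul, ← pr_zero]; exact crv_pr 0⟩
    | succ N ih => exact ih.elim fun c hc => ⟨_, by rw [succ_nsmul]; exact hc.add crv_oP⟩
  obtain ⟨c, hc⟩ := h N
  exact ⟨_, by rw [sub_eq_add_neg]; exact (crv_mxf hs hΦ).add hc.neg⟩

/-! ### the class -/

open Classical in
/-- **the first Chern class** of `O(a)` -/
def c1P (P : PModel ℂ F) (a : BD ℂ F) : HP P :=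
  if h : ∃ c, Crv P a c then rcl h.choose_spec.ec else 0

theorem Crv.c1_eq (h : Crv P a c) : c1P P a = rcl h.ec := by
  have h1 : ∃ c, Crv P a c := ⟨c, h⟩
  rw [c1P, dif_pos h1]
  exact rcl_congr _ _ (h1.choose_spec.choose_spec.choose_spec.coh h.choose_spec.choose_spec)

theorem c1P_oP : c1P P (oP P) = rcl ec_fs := crv_oP.c1_eq

theorem c1P_dg (ha : a ∈ On P) : c1P P a ∈ dgP P 1 := by
  obtain ⟨c, h⟩ := exists_crv ha
  rw [h.c1_eq]
  exact rcl_mem_HD _ h.deg

theorem c1P_add (ha : a ∈ On P) (ha' : a' ∈ On P) : c1P P (a + a') = c1P P a + c1P P a' := by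
  obtain ⟨c, h⟩ := exists_crv ha
  obtain ⟨c', h'⟩ := exists_crv ha'
  rw [(h.add h').c1_eq, h.c1_eq, h'.c1_eq, ← rcl_add]

theorem c1P_pr (f : F) : c1P P (pr ℂ f) = 0 := (crv_pr f).c1_eq.trans rcl_zero

theorem c1P_pb (μ : Mor P' P) (ha : a ∈ On P) {b : BD ℂ K} {u : F}
    (hb : ∀ (y : Pts P') (f : F), At a (μ.map y) f → At b y (μ.p.π (f / u))) :
    pullH μ (c1P P a) = c1P P' b := by
  obtain ⟨c, h⟩ := exists_crv ha
  rw [h.c1_eq, (h.pull μ hb).c1_eq, pullH_rcl]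

theorem c1P_conj (ha : a ∈ On P) : H.conj (XP P) (c1P P a) = c1P P a := by
  obtain ⟨c, h⟩ := exists_crv ha
  rw [h.c1_eq, conj_rcl]





/-- the first Chern class as a field of `Coh.Th` -/
def c1 (X : Coh.SV) (a : BD ℂ X.F) : HP X.P := c1P X.P a

theorem c1Ax : C1Ax c1 where
  dg _ _ ha := c1P_dg ha
  add _ _ ha _ hb := c1P_add ha hb
  pr _ f := c1P_pr f
  pb μ _ ha _ h := h.elim fun _ hu => c1P_pb μ ha hu
  cj _ _ ha := c1P_conj ha

end Crest.Agent.X262.PL
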